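import Vale.Agent.P154.NegEnd.TanAssembly
import Vale.Agent.P154.NegMid.Bounds

/-!
P154 NegNine: tangent bounds of the second order remainder of Poisson trees on `[0, 41/10]`, from
the exact tangent and a Taylor remainder.
-/

namespace Vale.Agent.P154.NegNine

open Set NegMid.TanBd

/-- Lower bound of `exp (-x) - 1 + x`, less the error of the tangent. -/
noncomputable def sLo (x : ℝ) : ℝ :=
  x ^ 2 / 2 - x ^ 3 / 6 + x ^ 4 / 24 - x ^ 5 / 120 - 41 / 10 * x ^ 6 / 720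

/-- Upper bound of `exp (-x) - 1 + x`, plus the error of the tangent. -/
noncomputable def sHi (x : ℝ) : ℝ :=
  x ^ 2 / 2 - x ^ 3 / 6 + x ^ 4 / 24 - x ^ 5 / 120 + 51 / 10 * x ^ 6 / 720

/-- The approximate derivative. -/
noncomputable def sD (x : ℝ) : ℝ :=
  x - x ^ 2 / 2 + x ^ 3 / 6 - x ^ 4 / 24 + x ^ 5 / 120

/-- The approximate derivative is nonnegative on the small interval. -/
lemma sD_nonneg {x : ℝ} (h0 : 0 ≤ x) (h1 : x ≤ 1 / 10) : 0 ≤ sD x := by
  have e : sD x = x * (1 - x / 2 + x ^ 2 / 6 * (1 - x / 4) + x ^ 4 / 120) := by rw [sD]; ring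
  rw [e]
  refine mul_nonneg h0 ?_
  have h2 : (0 : ℝ) ≤ x ^ 2 / 6 * (1 - x / 4) := mul_nonneg (by positivity) (by linarith)
  have h4 : (0 : ℝ) ≤ x ^ 4 / 120 := by positivity
  linarith

/-- The tangent bounds for a Poisson number of children. -/
theorem tanBd_poisson {d : ℝ} (hd : 0 < d) :
    NegEnd.TanBd (genPoisson d) d 1 (41 / 10) sLo sD sHi sD := by
  intro z hz hz2 a ha ha2 _
  have hG : genPoisson d (1 - a / d) = Real.exp (-a) := by
    rw [genPoisson]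
    congr 1
    field_simp
    ring
  rw [hG]
  have h6 := T_sign 6 z hz
  have h7 := T_sign 7 z hz
  simp [T, Finset.sum_range_succ, Nat.factorial] at h6 h7
  obtain ⟨η, hη⟩ : ∃ η, η = Real.exp (-z) - (1 - z + z ^ 2 / 2 - z ^ 3 / 6 + z ^ 4 / 24 - z ^ 5 / 120) :=
    ⟨_, rfl⟩
  have hη0 : 0 ≤ η := by rw [hη]; ring_nf at h6 ⊢; linarith
  have hη1 : η ≤ z ^ 6 / 720 := by rw [hη]; ring_nf at h7 ⊢; linarith
  have hexp : Real.exp (-z) = 1 - z + z ^ 2 / 2 - z ^ 3 / 6 + z ^ 4 / 24 - z ^ 5 / 120 + η := by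
    rw [hη]; ring
  have d1 : ∀ x ∈ Icc (0 : ℝ) (41 / 10),
      HasDerivAt (fun x => Real.exp (-x) - 1 + x) (1 - Real.exp (-x)) x := fun x _ =>
    ((((hasDerivAt_id x).neg.exp).sub_const 1).add (hasDerivAt_id x)).congr_deriv (by simp; ring)
  have d2 : ∀ x ∈ Icc (0 : ℝ) (41 / 10),
      HasDerivAt (fun x => 1 - Real.exp (-x)) (Real.exp (-x)) x := fun x _ =>
    (((hasDerivAt_id x).neg.exp).const_sub 1).congr_deriv (by simp)
  have l1 := tangent_le d1 d2 (fun x _ => (Real.exp_pos _).le) (z := z) ⟨hz, hz2⟩ (a := a) ⟨ha, ha2⟩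
  have u1 := le_tangent d1 d2 (K := 1)
    (fun x hx => Real.exp_le_one_iff.2 (by linarith [hx.1])) (z := z) ⟨hz, hz2⟩ (a := a) ⟨ha, ha2⟩
  rw [hexp] at l1 u1
  have p1 : η * (a - z) ≤ 41 / 10 * (z ^ 6 / 720) :=
    le_trans (mul_le_mul_of_nonneg_left (c := 41 / 10) (by linarith) hη0)
      (by linarith [mul_le_mul_of_nonneg_right hη1 (by norm_num : (0 : ℝ) ≤ 41 / 10)])
  have p2 : η * (z - a) ≤ 41 / 10 * (z ^ 6 / 720) :=
    le_trans (mul_le_mul_of_nonneg_left (c := 41 / 10) (by linarith) hη0)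
      (by linarith [mul_le_mul_of_nonneg_right hη1 (by norm_num : (0 : ℝ) ≤ 41 / 10)])
  refine ⟨?_, ?_⟩
  · rw [sLo, sD]; linarith
  · rw [sHi, sD]; linarith

end Vale.Agent.P154.NegNine
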