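import Vale.Agent.P154.NegNine.ClosingChk

/-!
P154 NegNine: the closing inequality on its whole domain.
-/

namespace Vale.Agent.P154.NegNine

open PolyCheck

lemma mem_iv {lo hi den : ℤ} {x : ℝ} (hd : 0 < den) (h1 : (lo : ℝ) / den ≤ x)
    (h2 : x ≤ (hi : ℝ) / den) : (⟨lo, hi, den⟩ : Iv).Mem x := by
  have hd' : (0 : ℝ) < den := by exact_mod_cast hd
  exact ⟨by rw [mul_comm]; exact (div_le_iff₀ hd').1 h1,
    by rw [mul_comm]; exact (le_div_iff₀ hd').1 h2⟩

lemma box_four {I0 I1 I2 I3 : Iv} {x0 x1 x2 x3 : ℝ} (h0 : I0.Mem x0) (h1 : I1.Mem x1)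
    (h2 : I2.Mem x2) (h3 : I3.Mem x3) : BoxMem [I0, I1, I2, I3] (pt [x0, x1, x2, x3]) :=
  ⟨h0, h1, h2, h3, trivial⟩

lemma eK_eval (A E l s p u : Ex) (x : ℕ → ℝ) (τ : ℝ) (hs : s.eval x * τ = A.eval x ^ 2)
    (hu : p.eval x * τ = u.eval x) :
    Kclo (A.eval x) (E.eval x) (l.eval x) (u.eval x) = τ ^ 2 * (eK A E l s p u).eval x := by
  have hV := NegEnd.mon_sub 0 4 (A.eval x) (-(E.eval x)) 1 L_Vh (by decide)
  have hG := NegEnd.mon_sub 2 4 (A.eval x) (E.eval x) (l.eval x) L_Gh (by decide)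
  have hQ := NegEnd.mon_sub 4 4 (A.eval x) (E.eval x) (l.eval x) L_Q (by decide)
  have h1 := NegEnd.mon_sub 2 2 (A.eval x) (E.eval x) (l.eval x) L_D1 (by decide)
  have h2 := NegEnd.mon_sub 2 2 (A.eval x) (E.eval x) (l.eval x) L_D2 (by decide)
  have h3 := NegEnd.mon_sub 2 2 (A.eval x) (E.eval x) (l.eval x) L_D3 (by decide)
  have h4 := NegEnd.mon_sub 2 2 (A.eval x) (E.eval x) (l.eval x) L_D4 (by decide)
  have h5 := NegEnd.mon_sub 2 2 (A.eval x) (E.eval x) (l.eval x) L_D5 (by decide)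
  have h2s : A.eval x ^ 4 = (s.eval x * τ) ^ 2 := by rw [hs]; ring
  simp only [Kclo, eK, eval_add, eval_sub, eval_mul, eval_pow, eval_c, eval_neg, horEx_eval,
    NegEnd.monEx_eval, ← hV, ← hG, ← hQ, ← h1, ← h2, ← h3, ← h4, ← h5, h2s, ← hs, Int.cast_one,
    Int.cast_ofNat]
  rw [← hu]
  ring

lemma eB_eval (a η l z : ℝ) :
    eB.eval (pt [a, η, l, z]) = 3 * a ^ 2 - 1 - 2 * η * a ^ 3 := by
  simp [eB, pt]

lemma closing0 {a η l m : ℝ} (ha : 19 / 100 ≤ a) (ha1 : a ≤ 855 / 1000) (hη : -1 ≤ η)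
    (hη1 : η ≤ 1) (hC : 3 * a ^ 2 - 1 ≤ 2 * η * a ^ 3) (hl : 497 / 1000 ≤ l) (hl1 : l ≤ 1 / 2)
    (hm : 0 ≤ m) (hm1 : m ≤ 3 / 40) : 0 ≤ Kclo a η l m := by
  have hbox : BoxMem [⟨190, 855, 1000⟩, ⟨-1, 1, 1⟩, ⟨497, 500, 1000⟩, ⟨0, 75, 1000⟩]
      (pt [a, η, l, m]) :=
    box_four (mem_iv (by norm_num) (by norm_num; linarith) (by norm_num; linarith))
      (mem_iv (by norm_num) (by norm_num; linarith) (by norm_num; linarith))
      (mem_iv (by norm_num) (by norm_num; linarith) (by norm_num; linarith))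
      (mem_iv (by norm_num) (by norm_num; linarith) (by norm_num; linarith))
  obtain ⟨es, hes, hall⟩ := checkAlt_sound 4 _ _ _ _ chkClo0 hbox
  have hK := eK_eval (Ex.v 0) (Ex.v 1) (Ex.v 2) (Ex.v 0 ^ 2) (Ex.v 3) (Ex.v 3) (pt [a, η, l, m]) 1
    (by simp [pt]) (by simp [pt])
  rw [one_pow, one_mul] at hK
  have hK' : Kclo a η l m = eK0.eval (pt [a, η, l, m]) := by
    simpa [pt, eK0] using hK
  rw [hK']
  simp only [alts0, List.mem_cons, List.not_mem_nil, or_false] at hes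
  rcases hes with rfl | rfl | rfl | rfl
  · exact hall eK0 (by simp)
  · have := hall _ (List.mem_cons_self ..)
    simp only [eval_sub, eval_mul, eval_c, eB_eval] at this
    push_cast at this
    linarith
  all_goals
    have := hall _ (List.mem_cons_self ..)
    simp only [eval_add, eval_mul, eval_c, eB_eval] at this
    push_cast at this
    linarith

/-- The closing inequality. -/
theorem closing_nonneg {a η l m : ℝ} (ha : 0 ≤ a) (ha1 : a ≤ 855 / 1000) (hη : -1 ≤ η)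
    (hη1 : η ≤ 1) (hC : 3 * a ^ 2 - 1 ≤ 2 * η * a ^ 3) (hl : 497 / 1000 ≤ l) (hl1 : l ≤ 1 / 2)
    (hm : 0 ≤ m) (hm1 : m ≤ 3 / 40) : 0 ≤ Kclo a η l m := by
  rcases le_total (19 / 100) a with h | h
  · exact closing0 h ha1 hη hη1 hC hl hl1 hm hm1
  have mI : ∀ {lo hi den : ℤ} {x : ℝ}, 0 < den → (lo : ℝ) / den ≤ x → x ≤ (hi : ℝ) / den →
      (⟨lo, hi, den⟩ : Iv).Mem x := fun hd h1 h2 => mem_iv hd h1 h2
  rcases le_or_gt m (2 * a ^ 2) with h2 | h2
  · rcases eq_or_ne a 0 with rfl | hne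
    · have h0 : m = 0 := by linarith
      subst h0
      have hbox : BoxMem [⟨0, 19, 100⟩, ⟨-1, 1, 1⟩, ⟨497, 500, 1000⟩, ⟨0, 2, 1⟩]
          (pt [0, η, l, 0]) :=
        box_four (mI (by norm_num) (by norm_num) (by norm_num))
          (mI (by norm_num) (by norm_num; linarith) (by norm_num; linarith))
          (mI (by norm_num) (by norm_num; linarith) (by norm_num; linarith))
          (mI (by norm_num) (by norm_num) (by norm_num))
      obtain ⟨es, hes, hall⟩ := checkAlt_sound 4 _ _ _ _ chkClo1 hbox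
      simp only [List.mem_cons, List.not_mem_nil, or_false] at hes
      subst hes
      have hK := eK_eval (Ex.v 0) (Ex.v 1) (Ex.v 2) (Ex.c 1) (Ex.v 3) (Ex.v 3 * Ex.v 0 ^ 2)
        (pt [0, η, l, 0]) (0 ^ 2) (by simp [pt]) (by simp [pt])
      have hK' : Kclo 0 η l 0 = ((0 : ℝ) ^ 2) ^ 2 * eK1.eval (pt [0, η, l, 0]) := by
        simpa [pt, eK1] using hK
      rw [hK']
      exact mul_nonneg (sq_nonneg _) (hall eK1 (by simp))
    · have hpos : 0 < a ^ 2 := by positivity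
      obtain ⟨z, hz⟩ : ∃ z, z = m / a ^ 2 := ⟨_, rfl⟩
      have hzm : z * a ^ 2 = m := by rw [hz, div_mul_cancel₀ _ hpos.ne']
      have hz0 : 0 ≤ z := hz ▸ div_nonneg hm hpos.le
      have hz2 : z ≤ 2 := hz ▸ (div_le_iff₀ hpos).2 h2
      have hbox : BoxMem [⟨0, 19, 100⟩, ⟨-1, 1, 1⟩, ⟨497, 500, 1000⟩, ⟨0, 2, 1⟩]
          (pt [a, η, l, z]) :=
        box_four (mI (by norm_num) (by norm_num; linarith) (by norm_num; linarith))
          (mI (by norm_num) (by norm_num; linarith) (by norm_num; linarith))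
          (mI (by norm_num) (by norm_num; linarith) (by norm_num; linarith))
          (mI (by norm_num) (by norm_num; linarith) (by norm_num; linarith))
      obtain ⟨es, hes, hall⟩ := checkAlt_sound 4 _ _ _ _ chkClo1 hbox
      simp only [List.mem_cons, List.not_mem_nil, or_false] at hes
      subst hes
      have hK := eK_eval (Ex.v 0) (Ex.v 1) (Ex.v 2) (Ex.c 1) (Ex.v 3) (Ex.v 3 * Ex.v 0 ^ 2)
        (pt [a, η, l, z]) (a ^ 2) (by simp [pt]) (by simp [pt])
      have hK' : Kclo a η l (z * a ^ 2) = (a ^ 2) ^ 2 * eK1.eval (pt [a, η, l, z]) := by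
        simpa [pt, eK1] using hK
      rw [← hzm, hK']
      exact mul_nonneg (sq_nonneg _) (hall eK1 (by simp))
  · obtain ⟨b, hb⟩ : ∃ b, b = √m := ⟨_, rfl⟩
    have hb2 : b ^ 2 = m := by rw [hb, Real.sq_sqrt hm]
    have hb0 : 0 < b := hb ▸ Real.sqrt_pos.2 (by nlinarith [sq_nonneg a])
    have hb1 : b ≤ 274 / 1000 := by nlinarith
    obtain ⟨w, hw⟩ : ∃ w, w = a / b := ⟨_, rfl⟩
    have hwb : w * b = a := by rw [hw, div_mul_cancel₀ _ hb0.ne']
    have hw0 : 0 ≤ w := hw ▸ div_nonneg ha hb0.le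
    have hw1 : w ≤ 708 / 1000 := by
      rw [hw, div_le_iff₀ hb0]
      nlinarith [sq_nonneg a, mul_pos hb0 hb0]
    have hbox : BoxMem [⟨0, 708, 1000⟩, ⟨-1, 1, 1⟩, ⟨497, 500, 1000⟩, ⟨0, 274, 1000⟩]
        (pt [w, η, l, b]) :=
      box_four (mI (by norm_num) (by norm_num; linarith) (by norm_num; linarith))
        (mI (by norm_num) (by norm_num; linarith) (by norm_num; linarith))
        (mI (by norm_num) (by norm_num; linarith) (by norm_num; linarith))
        (mI (by norm_num) (by norm_num; linarith) (by norm_num; linarith))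
    obtain ⟨es, hes, hall⟩ := checkAlt_sound 4 _ _ _ _ chkClo2 hbox
    simp only [alts2, List.mem_cons, List.not_mem_nil, or_false] at hes
    rcases hes with rfl | rfl
    · have hK := eK_eval (Ex.v 0 * Ex.v 3) (Ex.v 1) (Ex.v 2) (Ex.v 0 ^ 2) (Ex.c 1) (Ex.v 3 ^ 2)
        (pt [w, η, l, b]) (b ^ 2) (by simp [pt]; ring) (by simp [pt])
      have hK' : Kclo (w * b) η l (b ^ 2) = (b ^ 2) ^ 2 * eK2.eval (pt [w, η, l, b]) := by
        simpa [pt, eK2] using hK
      rw [← hwb, ← hb2, hK']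
      exact mul_nonneg (sq_nonneg _) (hall eK2 (by simp))
    · have := hall _ (List.mem_cons_self ..)
      simp [pt, hwb] at this
      linarith

end Vale.Agent.P154.NegNine
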