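import Vale.Agent.P154.NegNine.Data

/-!
P154 NegNine: the closing inequality and its certificates (generated).
-/

namespace Vale.Agent.P154.NegNine

open PolyCheck

/-- The closing expression, scaled. -/
def Kclo (a η l m : ℝ) : ℝ :=
  1080000000000000000000000 * (mon 0 0 L_Vh a (-η) 1 - mon 2 0 L_Gh a η l) - 5000000000000000 * mon 4 0 L_Q a η l - 874800000000000000000000000 * a ^ 4 +
    m ^ 2 * hor h0 m +
    m * hor h1 m * mon 2 0 L_D1 a η l +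
    m * hor h2 m * mon 2 0 L_D2 a η l +
    m * hor h3 m * mon 2 0 L_D3 a η l +
    m * hor h4 m * mon 2 0 L_D4 a η l +
    m * hor h5 m * mon 2 0 L_D5 a η l

/-- The same over the square of a common factor `τ`, with `a ^ 2 = s * τ`, `m = p * τ`. -/
def eK (A E l s p u : Ex) : Ex :=
  s ^ 2 * (Ex.c (1080000000000000000000000) * (monEx 0 4 L_Vh A (-E) (Ex.c 1) - monEx 2 4 L_Gh A E l) -
      Ex.c (5000000000000000) * monEx 4 4 L_Q A E l - Ex.c (874800000000000000000000000)) +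
    p ^ 2 * horEx h0 u +
    p * s * horEx h1 u * monEx 2 2 L_D1 A E l +
    p * s * horEx h2 u * monEx 2 2 L_D2 A E l +
    p * s * horEx h3 u * monEx 2 2 L_D3 A E l +
    p * s * horEx h4 u * monEx 2 2 L_D4 A E l +
    p * s * horEx h5 u * monEx 2 2 L_D5 A E l

/-- The closing expression away from the origin. -/
def eK0 : Ex := eK (Ex.v 0) (Ex.v 1) (Ex.v 2) (Ex.v 0 ^ 2) (Ex.v 3) (Ex.v 3)

/-- The closing expression near the origin, below the parabola. -/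
def eK1 : Ex := eK (Ex.v 0) (Ex.v 1) (Ex.v 2) (Ex.c 1) (Ex.v 3) (Ex.v 3 * Ex.v 0 ^ 2)

/-- The closing expression near the origin, above the parabola. -/
def eK2 : Ex :=
  eK (Ex.v 0 * Ex.v 3) (Ex.v 1) (Ex.v 2) (Ex.v 0 ^ 2) (Ex.c 1) (Ex.v 3 ^ 2)

/-- Positive outside the range of `C`. -/
def eB : Ex := Ex.c 3 * Ex.v 0 ^ 2 - Ex.c 1 - Ex.c 2 * Ex.v 1 * Ex.v 0 ^ 3

/-- The alternatives away from the origin. -/
def alts0 : List (List Ex) :=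
  [[eK0], [Ex.c 1000000 * eB - Ex.c 1], [eK0 + Ex.c (262440000000000010161221533696) * eB], [eK0 + Ex.c (26243999999999999256903548928) * eB]]

/-- The alternatives near the origin, above the parabola. -/
def alts2 : List (List Ex) :=
  [[eK2], [Ex.c 1000000 * (Ex.c 100 * (Ex.v 0 * Ex.v 3) - Ex.c 19) - Ex.c 1]]

theorem chkClo0_0 : checkAlt 4 alts0 (.cut 3 (.leaf 0) (.cut 0 (.leaf 0) (.leaf 0)))
    [⟨380, 1045, 2000⟩, ⟨-2, 0, 2⟩, ⟨497, 500, 1000⟩, ⟨0, 75, 1000⟩] = true := by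
  decide +kernel

theorem chkClo0_1 : checkAlt 4 alts0 (.leaf 0)
    [⟨380, 1045, 2000⟩, ⟨0, 2, 2⟩, ⟨497, 500, 1000⟩, ⟨0, 75, 2000⟩] = true := by
  decide +kernel

theorem chkClo0_2 : checkAlt 4 alts0 (.cut 1 (.leaf 0) (.cut 3 (.leaf 0) (.cut 0 (.leaf 0) (.leaf 0))))
    [⟨760, 1425, 4000⟩, ⟨0, 2, 2⟩, ⟨497, 500, 1000⟩, ⟨75, 150, 2000⟩] = true := by
  decide +kernel

theorem chkClo0_3 : checkAlt 4 alts0 (.leaf 0)
    [⟨1425, 2090, 4000⟩, ⟨0, 2, 2⟩, ⟨497, 500, 1000⟩, ⟨75, 150, 2000⟩] = true := by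
  decide +kernel

theorem chkClo0_4 : checkAlt 4 alts0 (.cut 0 (.cut 1 (.leaf 0) (.cut 3 (.leaf 0) (.cut 0 (.leaf 0) (.leaf 0)))) (.leaf 0))
    [⟨380, 1045, 2000⟩, ⟨0, 2, 2⟩, ⟨497, 500, 1000⟩, ⟨75, 150, 2000⟩] = true := checkAlt_cut chkClo0_2 chkClo0_3

theorem chkClo0_5 : checkAlt 4 alts0 (.cut 3 (.leaf 0) (.cut 0 (.cut 1 (.leaf 0) (.cut 3 (.leaf 0) (.cut 0 (.leaf 0) (.leaf 0)))) (.leaf 0)))
    [⟨380, 1045, 2000⟩, ⟨0, 2, 2⟩, ⟨497, 500, 1000⟩, ⟨0, 75, 1000⟩] = true := checkAlt_cut chkClo0_1 chkClo0_4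

theorem chkClo0_6 : checkAlt 4 alts0 (.cut 1 (.cut 3 (.leaf 0) (.cut 0 (.leaf 0) (.leaf 0))) (.cut 3 (.leaf 0) (.cut 0 (.cut 1 (.leaf 0) (.cut 3 (.leaf 0) (.cut 0 (.leaf 0) (.leaf 0)))) (.leaf 0))))
    [⟨380, 1045, 2000⟩, ⟨-1, 1, 1⟩, ⟨497, 500, 1000⟩, ⟨0, 75, 1000⟩] = true := checkAlt_cut chkClo0_0 chkClo0_5

theorem chkClo0_7 : checkAlt 4 alts0 (.cut 1 (.leaf 0) (.leaf 0))
    [⟨1045, 1710, 2000⟩, ⟨-1, 1, 1⟩, ⟨497, 500, 1000⟩, ⟨0, 75, 1000⟩] = true := by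
  decide +kernel

theorem chkClo0 : checkAlt 4 alts0 (.cut 0 (.cut 1 (.cut 3 (.leaf 0) (.cut 0 (.leaf 0) (.leaf 0))) (.cut 3 (.leaf 0) (.cut 0 (.cut 1 (.leaf 0) (.cut 3 (.leaf 0) (.cut 0 (.leaf 0) (.leaf 0)))) (.leaf 0)))) (.cut 1 (.leaf 0) (.leaf 0)))
    [⟨190, 855, 1000⟩, ⟨-1, 1, 1⟩, ⟨497, 500, 1000⟩, ⟨0, 75, 1000⟩] = true := checkAlt_cut chkClo0_6 chkClo0_7

theorem chkClo1 : checkAlt 4 [[eK1]] (.leaf 0)
    [⟨0, 19, 100⟩, ⟨-1, 1, 1⟩, ⟨497, 500, 1000⟩, ⟨0, 2, 1⟩] = true := by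
  decide +kernel

theorem chkClo2 : checkAlt 4 alts2 (.leaf 0)
    [⟨0, 708, 1000⟩, ⟨-1, 1, 1⟩, ⟨497, 500, 1000⟩, ⟨0, 274, 1000⟩] = true := by
  decide +kernel

end Vale.Agent.P154.NegNine
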