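import Vale.Agent.P154.NegNine.EnvD1p0
import Vale.Agent.P154.NegNine.EnvD1p1
import Vale.Agent.P154.NegNine.EnvD1p2
import Vale.Agent.P154.NegNine.EnvD1p3
import Vale.Agent.P154.NegNine.EnvD1p4

/-!
P154 NegNine: certificate of envelope D1 (generated).
-/

namespace Vale.Agent.P154.NegNine

open PolyCheck

theorem chkD1_3 : checkAlt 2 (envAlts 6 eEnvD1 [eTop, eBot] [75168, 7516800]) (.cut 0 (.leaf 0) (.cut 1 (.leaf 0) (.cut 0 (.leaf 0) (.leaf 1))))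
    [⟨0, 1, 8⟩, ⟨1, 2, 2⟩] = true := checkAlt_cut chkD1_1 chkD1_2

theorem chkD1_4 : checkAlt 2 (envAlts 6 eEnvD1 [eTop, eBot] [75168, 7516800]) (.cut 1 (.leaf 0) (.cut 0 (.leaf 0) (.cut 1 (.leaf 0) (.cut 0 (.leaf 0) (.leaf 1)))))
    [⟨0, 1, 8⟩, ⟨0, 1, 1⟩] = true := checkAlt_cut chkD1_0 chkD1_3

theorem chkD1_7 : checkAlt 2 (envAlts 6 eEnvD1 [eTop, eBot] [75168, 7516800]) (.cut 1 (.cut 0 (.leaf 0) (.cut 1 (.leaf 0) (.leaf 1))) (.leaf 1))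
    [⟨1, 2, 8⟩, ⟨0, 1, 1⟩] = true := checkAlt_cut chkD1_5 chkD1_6

theorem chkD1_8 : checkAlt 2 (envAlts 6 eEnvD1 [eTop, eBot] [75168, 7516800]) (.cut 0 (.cut 1 (.leaf 0) (.cut 0 (.leaf 0) (.cut 1 (.leaf 0) (.cut 0 (.leaf 0) (.leaf 1))))) (.cut 1 (.cut 0 (.leaf 0) (.cut 1 (.leaf 0) (.leaf 1))) (.leaf 1)))
    [⟨0, 1, 4⟩, ⟨0, 1, 1⟩] = true := checkAlt_cut chkD1_4 chkD1_7

theorem chkD1_11 : checkAlt 2 (envAlts 6 eEnvD1 [eTop, eBot] [75168, 7516800]) (.cut 1 (.cut 0 (.cut 1 (.leaf 0) (.leaf 1)) (.leaf 2)) (.leaf 1))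
    [⟨2, 3, 8⟩, ⟨0, 1, 1⟩] = true := checkAlt_cut chkD1_9 chkD1_10

theorem chkD1_13 : checkAlt 2 (envAlts 6 eEnvD1 [eTop, eBot] [75168, 7516800]) (.cut 0 (.cut 1 (.cut 0 (.cut 1 (.leaf 0) (.leaf 1)) (.leaf 2)) (.leaf 1)) (.leaf 2))
    [⟨1, 2, 4⟩, ⟨0, 1, 1⟩] = true := checkAlt_cut chkD1_11 chkD1_12

theorem chkD1_14 : checkAlt 2 (envAlts 6 eEnvD1 [eTop, eBot] [75168, 7516800]) (.cut 0 (.cut 0 (.cut 1 (.leaf 0) (.cut 0 (.leaf 0) (.cut 1 (.leaf 0) (.cut 0 (.leaf 0) (.leaf 1))))) (.cut 1 (.cut 0 (.leaf 0) (.cut 1 (.leaf 0) (.leaf 1))) (.leaf 1))) (.cut 0 (.cut 1 (.cut 0 (.cut 1 (.leaf 0) (.leaf 1)) (.leaf 2)) (.leaf 1)) (.leaf 2)))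
    [⟨0, 1, 2⟩, ⟨0, 1, 1⟩] = true := checkAlt_cut chkD1_8 chkD1_13

theorem chkD1 : checkAlt 2 (envAlts 6 eEnvD1 [eTop, eBot] [75168, 7516800]) (.cut 0 (.cut 0 (.cut 0 (.cut 1 (.leaf 0) (.cut 0 (.leaf 0) (.cut 1 (.leaf 0) (.cut 0 (.leaf 0) (.leaf 1))))) (.cut 1 (.cut 0 (.leaf 0) (.cut 1 (.leaf 0) (.leaf 1))) (.leaf 1))) (.cut 0 (.cut 1 (.cut 0 (.cut 1 (.leaf 0) (.leaf 1)) (.leaf 2)) (.leaf 1)) (.leaf 2))) (.leaf 0))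
    [⟨0, 1, 1⟩, ⟨0, 1, 1⟩] = true := checkAlt_cut chkD1_14 chkD1_15

end Vale.Agent.P154.NegNine
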