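import Vale.Agent.P154.NegNine.EnvD2p0

/-!
P154 NegNine: certificate of envelope D2 (generated).
-/

namespace Vale.Agent.P154.NegNine

open PolyCheck

theorem chkD2 : checkAlt 2 (envAlts 6 eEnvD2 [eTop, eBot] [516456, 51645600]) (.cut 0 (.cut 1 (.leaf 0) (.cut 0 (.leaf 0) (.leaf 1))) (.leaf 2))
    [⟨0, 1, 1⟩, ⟨0, 1, 1⟩] = true := checkAlt_cut chkD2_0 chkD2_1

end Vale.Agent.P154.NegNine
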