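import Vale.Agent.P154.NegNine.Data

/-!
P154 NegNine: part of the certificate of envelope D3 (generated).
-/

namespace Vale.Agent.P154.NegNine

open PolyCheck

theorem chkD3_13 : checkAlt 2 (envAlts 6 eEnvD3 [eTop, eBot] [345384, 34538400]) (.leaf 0)
    [⟨4, 5, 64⟩, ⟨6, 7, 8⟩] = true := by
  decide +kernel

theorem chkD3_14 : checkAlt 2 (envAlts 6 eEnvD3 [eTop, eBot] [345384, 34538400]) (.leaf 0)
    [⟨8, 9, 128⟩, ⟨7, 8, 8⟩] = true := by
  decide +kernel

end Vale.Agent.P154.NegNine
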