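import Vale.Agent.P154.NegNine.Data

/-!
P154 NegNine: part of the certificate of envelope D3 (generated).
-/

namespace Vale.Agent.P154.NegNine

open PolyCheck

theorem chkD3_23 : checkAlt 2 (envAlts 6 eEnvD3 [eTop, eBot] [345384, 34538400]) (.cut 0 (.cut 1 (.leaf 4) (.leaf 1)) (.leaf 1))
    [⟨5, 6, 64⟩, ⟨7, 8, 8⟩] = true := by
  decide +kernel

theorem chkD3_27 : checkAlt 2 (envAlts 6 eEnvD3 [eTop, eBot] [345384, 34538400]) (.cut 0 (.cut 1 (.leaf 0) (.leaf 4)) (.leaf 4))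
    [⟨6, 7, 64⟩, ⟨4, 5, 8⟩] = true := by
  decide +kernel

end Vale.Agent.P154.NegNine
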