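import Vale.Agent.P154.NegNine.EnvD3p0
import Vale.Agent.P154.NegNine.EnvD3p1
import Vale.Agent.P154.NegNine.EnvD3p2
import Vale.Agent.P154.NegNine.EnvD3p3
import Vale.Agent.P154.NegNine.EnvD3p4
import Vale.Agent.P154.NegNine.EnvD3p5
import Vale.Agent.P154.NegNine.EnvD3p6
import Vale.Agent.P154.NegNine.EnvD3p7
import Vale.Agent.P154.NegNine.EnvD3p8
import Vale.Agent.P154.NegNine.EnvD3p9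
import Vale.Agent.P154.NegNine.EnvD3p10
import Vale.Agent.P154.NegNine.EnvD3p11
import Vale.Agent.P154.NegNine.EnvD3p12
import Vale.Agent.P154.NegNine.EnvD3p13
import Vale.Agent.P154.NegNine.EnvD3p14
import Vale.Agent.P154.NegNine.EnvD3p15
import Vale.Agent.P154.NegNine.EnvD3p16
import Vale.Agent.P154.NegNine.EnvD3p17
import Vale.Agent.P154.NegNine.EnvD3p18
import Vale.Agent.P154.NegNine.EnvD3p19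

/-!
P154 NegNine: certificate of envelope D3 (generated).
-/

namespace Vale.Agent.P154.NegNine

open PolyCheck

theorem chkD3_4 : checkAlt 2 (envAlts 6 eEnvD3 [eTop, eBot] [345384, 34538400]) (.cut 1 (.leaf 0) (.cut 0 (.leaf 0) (.cut 1 (.leaf 0) (.leaf 4))))
    [⟨3, 4, 32⟩, ⟨0, 1, 2⟩] = true := checkAlt_cut chkD3_2 chkD3_3

theorem chkD3_5 : checkAlt 2 (envAlts 6 eEnvD3 [eTop, eBot] [345384, 34538400]) (.cut 0 (.leaf 0) (.cut 1 (.leaf 0) (.cut 0 (.leaf 0) (.cut 1 (.leaf 0) (.leaf 4)))))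
    [⟨1, 2, 16⟩, ⟨0, 1, 2⟩] = true := checkAlt_cut chkD3_1 chkD3_4

theorem chkD3_10 : checkAlt 2 (envAlts 6 eEnvD3 [eTop, eBot] [345384, 34538400]) (.cut 0 (.leaf 0) (.cut 1 (.cut 0 (.leaf 0) (.leaf 4)) (.leaf 4)))
    [⟨5, 6, 64⟩, ⟨5, 6, 8⟩] = true := checkAlt_cut chkD3_8 chkD3_9

theorem chkD3_11 : checkAlt 2 (envAlts 6 eEnvD3 [eTop, eBot] [345384, 34538400]) (.cut 1 (.leaf 0) (.cut 0 (.leaf 0) (.cut 1 (.cut 0 (.leaf 0) (.leaf 4)) (.leaf 4))))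
    [⟨5, 6, 64⟩, ⟨2, 3, 4⟩] = true := checkAlt_cut chkD3_7 chkD3_10

theorem chkD3_12 : checkAlt 2 (envAlts 6 eEnvD3 [eTop, eBot] [345384, 34538400]) (.cut 0 (.leaf 0) (.cut 1 (.leaf 0) (.cut 0 (.leaf 0) (.cut 1 (.cut 0 (.leaf 0) (.leaf 4)) (.leaf 4)))))
    [⟨2, 3, 32⟩, ⟨2, 3, 4⟩] = true := checkAlt_cut chkD3_6 chkD3_11

theorem chkD3_16 : checkAlt 2 (envAlts 6 eEnvD3 [eTop, eBot] [345384, 34538400]) (.cut 0 (.leaf 0) (.cut 1 (.leaf 0) (.cut 0 (.leaf 0) (.leaf 4))))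
    [⟨4, 5, 64⟩, ⟨7, 8, 8⟩] = true := checkAlt_cut chkD3_14 chkD3_15

theorem chkD3_17 : checkAlt 2 (envAlts 6 eEnvD3 [eTop, eBot] [345384, 34538400]) (.cut 1 (.leaf 0) (.cut 0 (.leaf 0) (.cut 1 (.leaf 0) (.cut 0 (.leaf 0) (.leaf 4)))))
    [⟨4, 5, 64⟩, ⟨3, 4, 4⟩] = true := checkAlt_cut chkD3_13 chkD3_16

theorem chkD3_20 : checkAlt 2 (envAlts 6 eEnvD3 [eTop, eBot] [345384, 34538400]) (.cut 1 (.cut 0 (.leaf 0) (.leaf 4)) (.cut 0 (.leaf 0) (.leaf 4)))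
    [⟨10, 11, 128⟩, ⟨6, 7, 8⟩] = true := checkAlt_cut chkD3_18 chkD3_19

theorem chkD3_22 : checkAlt 2 (envAlts 6 eEnvD3 [eTop, eBot] [345384, 34538400]) (.cut 0 (.cut 1 (.cut 0 (.leaf 0) (.leaf 4)) (.cut 0 (.leaf 0) (.leaf 4))) (.leaf 1))
    [⟨5, 6, 64⟩, ⟨6, 7, 8⟩] = true := checkAlt_cut chkD3_20 chkD3_21

theorem chkD3_24 : checkAlt 2 (envAlts 6 eEnvD3 [eTop, eBot] [345384, 34538400]) (.cut 1 (.cut 0 (.cut 1 (.cut 0 (.leaf 0) (.leaf 4)) (.cut 0 (.leaf 0) (.leaf 4))) (.leaf 1)) (.cut 0 (.cut 1 (.leaf 4) (.leaf 1)) (.leaf 1)))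
    [⟨5, 6, 64⟩, ⟨3, 4, 4⟩] = true := checkAlt_cut chkD3_22 chkD3_23

theorem chkD3_25 : checkAlt 2 (envAlts 6 eEnvD3 [eTop, eBot] [345384, 34538400]) (.cut 0 (.cut 1 (.leaf 0) (.cut 0 (.leaf 0) (.cut 1 (.leaf 0) (.cut 0 (.leaf 0) (.leaf 4))))) (.cut 1 (.cut 0 (.cut 1 (.cut 0 (.leaf 0) (.leaf 4)) (.cut 0 (.leaf 0) (.leaf 4))) (.leaf 1)) (.cut 0 (.cut 1 (.leaf 4) (.leaf 1)) (.leaf 1))))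
    [⟨2, 3, 32⟩, ⟨3, 4, 4⟩] = true := checkAlt_cut chkD3_17 chkD3_24

theorem chkD3_26 : checkAlt 2 (envAlts 6 eEnvD3 [eTop, eBot] [345384, 34538400]) (.cut 1 (.cut 0 (.leaf 0) (.cut 1 (.leaf 0) (.cut 0 (.leaf 0) (.cut 1 (.cut 0 (.leaf 0) (.leaf 4)) (.leaf 4))))) (.cut 0 (.cut 1 (.leaf 0) (.cut 0 (.leaf 0) (.cut 1 (.leaf 0) (.cut 0 (.leaf 0) (.leaf 4))))) (.cut 1 (.cut 0 (.cut 1 (.cut 0 (.leaf 0) (.leaf 4)) (.cut 0 (.leaf 0) (.leaf 4))) (.leaf 1)) (.cut 0 (.cut 1 (.leaf 4) (.leaf 1)) (.leaf 1)))))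
    [⟨2, 3, 32⟩, ⟨1, 2, 2⟩] = true := checkAlt_cut chkD3_12 chkD3_25

theorem chkD3_29 : checkAlt 2 (envAlts 6 eEnvD3 [eTop, eBot] [345384, 34538400]) (.cut 1 (.cut 0 (.cut 1 (.leaf 0) (.leaf 4)) (.leaf 4)) (.leaf 1))
    [⟨6, 7, 64⟩, ⟨2, 3, 4⟩] = true := checkAlt_cut chkD3_27 chkD3_28

theorem chkD3_31 : checkAlt 2 (envAlts 6 eEnvD3 [eTop, eBot] [345384, 34538400]) (.cut 0 (.cut 1 (.cut 0 (.cut 1 (.leaf 0) (.leaf 4)) (.leaf 4)) (.leaf 1)) (.leaf 1))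
    [⟨3, 4, 32⟩, ⟨2, 3, 4⟩] = true := checkAlt_cut chkD3_29 chkD3_30

theorem chkD3_33 : checkAlt 2 (envAlts 6 eEnvD3 [eTop, eBot] [345384, 34538400]) (.cut 1 (.cut 0 (.cut 1 (.cut 0 (.cut 1 (.leaf 0) (.leaf 4)) (.leaf 4)) (.leaf 1)) (.leaf 1)) (.leaf 1))
    [⟨3, 4, 32⟩, ⟨1, 2, 2⟩] = true := checkAlt_cut chkD3_31 chkD3_32

theorem chkD3_34 : checkAlt 2 (envAlts 6 eEnvD3 [eTop, eBot] [345384, 34538400]) (.cut 0 (.cut 1 (.cut 0 (.leaf 0) (.cut 1 (.leaf 0) (.cut 0 (.leaf 0) (.cut 1 (.cut 0 (.leaf 0) (.leaf 4)) (.leaf 4))))) (.cut 0 (.cut 1 (.leaf 0) (.cut 0 (.leaf 0) (.cut 1 (.leaf 0) (.cut 0 (.leaf 0) (.leaf 4))))) (.cut 1 (.cut 0 (.cut 1 (.cut 0 (.leaf 0) (.leaf 4)) (.cut 0 (.leaf 0) (.leaf 4))) (.leaf 1)) (.cut 0 (.cut 1 (.leaf 4) (.leaf 1)) (.leaf 1))))) (.cut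 1 (.cut 0 (.cut 1 (.cut 0 (.cut 1 (.leaf 0) (.leaf 4)) (.leaf 4)) (.leaf 1)) (.leaf 1)) (.leaf 1)))
    [⟨1, 2, 16⟩, ⟨1, 2, 2⟩] = true := checkAlt_cut chkD3_26 chkD3_33

theorem chkD3_35 : checkAlt 2 (envAlts 6 eEnvD3 [eTop, eBot] [345384, 34538400]) (.cut 1 (.cut 0 (.leaf 0) (.cut 1 (.leaf 0) (.cut 0 (.leaf 0) (.cut 1 (.leaf 0) (.leaf 4))))) (.cut 0 (.cut 1 (.cut 0 (.leaf 0) (.cut 1 (.leaf 0) (.cut 0 (.leaf 0) (.cut 1 (.cut 0 (.leaf 0) (.leaf 4)) (.leaf 4))))) (.cut 0 (.cut 1 (.leaf 0) (.cut 0 (.leaf 0) (.cut 1 (.leaf 0) (.cut 0 (.leaf 0) (.leaf 4))))) (.cut 1 (.cut 0 (.cut 1 (.cut 0 (.leaf 0) (.leaf 4)) (.cut 0 (.leaf 0) (.leaf 4))) (.leaf 1)) (.cut 0 (.cut 1 (.leaf 4) (.leaf 1)) (.leaf 1))))) (.cut 1 (.cut 0 (.cut 1 (.cut 0 (.cut 1 (.leaf 0) (.leaf 4)) (.leaf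 4)) (.leaf 1)) (.leaf 1)) (.leaf 1))))
    [⟨1, 2, 16⟩, ⟨0, 1, 1⟩] = true := checkAlt_cut chkD3_5 chkD3_34

theorem chkD3_36 : checkAlt 2 (envAlts 6 eEnvD3 [eTop, eBot] [345384, 34538400]) (.cut 0 (.leaf 0) (.cut 1 (.cut 0 (.leaf 0) (.cut 1 (.leaf 0) (.cut 0 (.leaf 0) (.cut 1 (.leaf 0) (.leaf 4))))) (.cut 0 (.cut 1 (.cut 0 (.leaf 0) (.cut 1 (.leaf 0) (.cut 0 (.leaf 0) (.cut 1 (.cut 0 (.leaf 0) (.leaf 4)) (.leaf 4))))) (.cut 0 (.cut 1 (.leaf 0) (.cut 0 (.leaf 0) (.cut 1 (.leaf 0) (.cut 0 (.leaf 0) (.leaf 4))))) (.cut 1 (.cut 0 (.cut 1 (.cut 0 (.leaf 0) (.leaf 4)) (.cut 0 (.leaf 0) (.leaf 4))) (.leaf 1)) (.cut 0 (.cut 1 (.leaf 4) (.leaf 1)) (.leaf 1))))) (.cut 1 (.cut 0 (.cut 1 (.cut 0 (.cut 1 (.leaf 0) (.leaf 4)) (.leaf 4)) (.leaf 1)) (.leaf 1)) (.leaf 1)))))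
    [⟨0, 1, 8⟩, ⟨0, 1, 1⟩] = true := checkAlt_cut chkD3_0 chkD3_35

theorem chkD3_39 : checkAlt 2 (envAlts 6 eEnvD3 [eTop, eBot] [345384, 34538400]) (.cut 1 (.leaf 0) (.cut 0 (.cut 1 (.leaf 0) (.leaf 1)) (.leaf 1)))
    [⟨4, 5, 32⟩, ⟨0, 1, 2⟩] = true := checkAlt_cut chkD3_37 chkD3_38

theorem chkD3_41 : checkAlt 2 (envAlts 6 eEnvD3 [eTop, eBot] [345384, 34538400]) (.cut 0 (.cut 1 (.leaf 0) (.cut 0 (.cut 1 (.leaf 0) (.leaf 1)) (.leaf 1))) (.cut 1 (.leaf 0) (.leaf 1)))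
    [⟨2, 3, 16⟩, ⟨0, 1, 2⟩] = true := checkAlt_cut chkD3_39 chkD3_40

theorem chkD3_43 : checkAlt 2 (envAlts 6 eEnvD3 [eTop, eBot] [345384, 34538400]) (.cut 1 (.cut 0 (.cut 1 (.leaf 0) (.cut 0 (.cut 1 (.leaf 0) (.leaf 1)) (.leaf 1))) (.cut 1 (.leaf 0) (.leaf 1))) (.leaf 1))
    [⟨2, 3, 16⟩, ⟨0, 1, 1⟩] = true := checkAlt_cut chkD3_41 chkD3_42

theorem chkD3_46 : checkAlt 2 (envAlts 6 eEnvD3 [eTop, eBot] [345384, 34538400]) (.cut 1 (.cut 0 (.leaf 0) (.cut 1 (.leaf 0) (.leaf 1))) (.leaf 1))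
    [⟨6, 7, 32⟩, ⟨0, 1, 2⟩] = true := checkAlt_cut chkD3_44 chkD3_45

theorem chkD3_49 : checkAlt 2 (envAlts 6 eEnvD3 [eTop, eBot] [345384, 34538400]) (.cut 0 (.leaf 0) (.cut 1 (.cut 0 (.leaf 6) (.leaf 2)) (.leaf 0)))
    [⟨28, 29, 128⟩, ⟨0, 1, 16⟩] = true := checkAlt_cut chkD3_47 chkD3_48

theorem chkD3_51 : checkAlt 2 (envAlts 6 eEnvD3 [eTop, eBot] [345384, 34538400]) (.cut 1 (.cut 0 (.leaf 0) (.cut 1 (.cut 0 (.leaf 6) (.leaf 2)) (.leaf 0))) (.leaf 0))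
    [⟨28, 29, 128⟩, ⟨0, 1, 8⟩] = true := checkAlt_cut chkD3_49 chkD3_50

theorem chkD3_54 : checkAlt 2 (envAlts 6 eEnvD3 [eTop, eBot] [345384, 34538400]) (.cut 0 (.cut 1 (.leaf 2) (.cut 0 (.leaf 6) (.leaf 2))) (.leaf 2))
    [⟨29, 30, 128⟩, ⟨0, 1, 16⟩] = true := checkAlt_cut chkD3_52 chkD3_53

theorem chkD3_56 : checkAlt 2 (envAlts 6 eEnvD3 [eTop, eBot] [345384, 34538400]) (.cut 1 (.cut 0 (.cut 1 (.leaf 2) (.cut 0 (.leaf 6) (.leaf 2))) (.leaf 2)) (.leaf 1))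
    [⟨29, 30, 128⟩, ⟨0, 1, 8⟩] = true := checkAlt_cut chkD3_54 chkD3_55

theorem chkD3_57 : checkAlt 2 (envAlts 6 eEnvD3 [eTop, eBot] [345384, 34538400]) (.cut 0 (.cut 1 (.cut 0 (.leaf 0) (.cut 1 (.cut 0 (.leaf 6) (.leaf 2)) (.leaf 0))) (.leaf 0)) (.cut 1 (.cut 0 (.cut 1 (.leaf 2) (.cut 0 (.leaf 6) (.leaf 2))) (.leaf 2)) (.leaf 1)))
    [⟨14, 15, 64⟩, ⟨0, 1, 8⟩] = true := checkAlt_cut chkD3_51 chkD3_56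

theorem chkD3_59 : checkAlt 2 (envAlts 6 eEnvD3 [eTop, eBot] [345384, 34538400]) (.cut 1 (.cut 0 (.cut 1 (.cut 0 (.leaf 0) (.cut 1 (.cut 0 (.leaf 6) (.leaf 2)) (.leaf 0))) (.leaf 0)) (.cut 1 (.cut 0 (.cut 1 (.leaf 2) (.cut 0 (.leaf 6) (.leaf 2))) (.leaf 2)) (.leaf 1))) (.leaf 1))
    [⟨14, 15, 64⟩, ⟨0, 1, 4⟩] = true := checkAlt_cut chkD3_57 chkD3_58

theorem chkD3_61 : checkAlt 2 (envAlts 6 eEnvD3 [eTop, eBot] [345384, 34538400]) (.cut 0 (.cut 1 (.cut 0 (.cut 1 (.cut 0 (.leaf 0) (.cut 1 (.cut 0 (.leaf 6) (.leaf 2)) (.leaf 0))) (.leaf 0)) (.cut 1 (.cut 0 (.cut 1 (.leaf 2) (.cut 0 (.leaf 6) (.leaf 2))) (.leaf 2)) (.leaf 1))) (.leaf 1)) (.cut 1 (.leaf 2) (.leaf 1)))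
    [⟨7, 8, 32⟩, ⟨0, 1, 4⟩] = true := checkAlt_cut chkD3_59 chkD3_60

theorem chkD3_63 : checkAlt 2 (envAlts 6 eEnvD3 [eTop, eBot] [345384, 34538400]) (.cut 1 (.cut 0 (.cut 1 (.cut 0 (.cut 1 (.cut 0 (.leaf 0) (.cut 1 (.cut 0 (.leaf 6) (.leaf 2)) (.leaf 0))) (.leaf 0)) (.cut 1 (.cut 0 (.cut 1 (.leaf 2) (.cut 0 (.leaf 6) (.leaf 2))) (.leaf 2)) (.leaf 1))) (.leaf 1)) (.cut 1 (.leaf 2) (.leaf 1))) (.leaf 1))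
    [⟨7, 8, 32⟩, ⟨0, 1, 2⟩] = true := checkAlt_cut chkD3_61 chkD3_62

theorem chkD3_64 : checkAlt 2 (envAlts 6 eEnvD3 [eTop, eBot] [345384, 34538400]) (.cut 0 (.cut 1 (.cut 0 (.leaf 0) (.cut 1 (.leaf 0) (.leaf 1))) (.leaf 1)) (.cut 1 (.cut 0 (.cut 1 (.cut 0 (.cut 1 (.cut 0 (.leaf 0) (.cut 1 (.cut 0 (.leaf 6) (.leaf 2)) (.leaf 0))) (.leaf 0)) (.cut 1 (.cut 0 (.cut 1 (.leaf 2) (.cut 0 (.leaf 6) (.leaf 2))) (.leaf 2)) (.leaf 1))) (.leaf 1)) (.cut 1 (.leaf 2) (.leaf 1))) (.leaf 1)))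
    [⟨3, 4, 16⟩, ⟨0, 1, 2⟩] = true := checkAlt_cut chkD3_46 chkD3_63

theorem chkD3_66 : checkAlt 2 (envAlts 6 eEnvD3 [eTop, eBot] [345384, 34538400]) (.cut 1 (.cut 0 (.cut 1 (.cut 0 (.leaf 0) (.cut 1 (.leaf 0) (.leaf 1))) (.leaf 1)) (.cut 1 (.cut 0 (.cut 1 (.cut 0 (.cut 1 (.cut 0 (.leaf 0) (.cut 1 (.cut 0 (.leaf 6) (.leaf 2)) (.leaf 0))) (.leaf 0)) (.cut 1 (.cut 0 (.cut 1 (.leaf 2) (.cut 0 (.leaf 6) (.leaf 2))) (.leaf 2)) (.leaf 1))) (.leaf 1)) (.cut 1 (.leaf 2) (.leaf 1))) (.leaf 1))) (.leaf 1))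
    [⟨3, 4, 16⟩, ⟨0, 1, 1⟩] = true := checkAlt_cut chkD3_64 chkD3_65

theorem chkD3_67 : checkAlt 2 (envAlts 6 eEnvD3 [eTop, eBot] [345384, 34538400]) (.cut 0 (.cut 1 (.cut 0 (.cut 1 (.leaf 0) (.cut 0 (.cut 1 (.leaf 0) (.leaf 1)) (.leaf 1))) (.cut 1 (.leaf 0) (.leaf 1))) (.leaf 1)) (.cut 1 (.cut 0 (.cut 1 (.cut 0 (.leaf 0) (.cut 1 (.leaf 0) (.leaf 1))) (.leaf 1)) (.cut 1 (.cut 0 (.cut 1 (.cut 0 (.cut 1 (.cut 0 (.leaf 0) (.cut 1 (.cut 0 (.leaf 6) (.leaf 2)) (.leaf 0))) (.leaf 0)) (.cut 1 (.cut 0 (.cut 1 (.leaf 2) (.cut 0 (.leaf 6) (.leaf 2))) (.leaf 2)) (.leaf 1))) (.leaf 1)) (.cut 1 (.leaf 2) (.leaf 1))) (.leaf 1))) (.leaf 1)))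
    [⟨1, 2, 8⟩, ⟨0, 1, 1⟩] = true := checkAlt_cut chkD3_43 chkD3_66

theorem chkD3_68 : checkAlt 2 (envAlts 6 eEnvD3 [eTop, eBot] [345384, 34538400]) (.cut 0 (.cut 0 (.leaf 0) (.cut 1 (.cut 0 (.leaf 0) (.cut 1 (.leaf 0) (.cut 0 (.leaf 0) (.cut 1 (.leaf 0) (.leaf 4))))) (.cut 0 (.cut 1 (.cut 0 (.leaf 0) (.cut 1 (.leaf 0) (.cut 0 (.leaf 0) (.cut 1 (.cut 0 (.leaf 0) (.leaf 4)) (.leaf 4))))) (.cut 0 (.cut 1 (.leaf 0) (.cut 0 (.leaf 0) (.cut 1 (.leaf 0) (.cut 0 (.leaf 0) (.leaf 4))))) (.cut 1 (.cut 0 (.cut 1 (.cut 0 (.leaf 0) (.leaf 4)) (.cut 0 (.leaf 0) (.leaf 4))) (.leaf 1)) (.cut 0 (.cut 1 (.leaf 4) (.leaf 1)) (.leaf 1))))) (.cut 1 (.cut 0 (.cut 1 (.cut 0 (.cut 1 (.leaf 0) (.leaf 4)) (.leaf 4)) (.leaf 1)) (.leaf 1)) (.leaf 1))))) (.cut 0 (.cut 1 (.cut 0 (.cut 1 (.leaf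 0) (.cut 0 (.cut 1 (.leaf 0) (.leaf 1)) (.leaf 1))) (.cut 1 (.leaf 0) (.leaf 1))) (.leaf 1)) (.cut 1 (.cut 0 (.cut 1 (.cut 0 (.leaf 0) (.cut 1 (.leaf 0) (.leaf 1))) (.leaf 1)) (.cut 1 (.cut 0 (.cut 1 (.cut 0 (.cut 1 (.cut 0 (.leaf 0) (.cut 1 (.cut 0 (.leaf 6) (.leaf 2)) (.leaf 0))) (.leaf 0)) (.cut 1 (.cut 0 (.cut 1 (.leaf 2) (.cut 0 (.leaf 6) (.leaf 2))) (.leaf 2)) (.leaf 1))) (.leaf 1)) (.cut 1 (.leaf 2) (.leaf 1))) (.leaf 1))) (.leaf 1))))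
    [⟨0, 1, 4⟩, ⟨0, 1, 1⟩] = true := checkAlt_cut chkD3_36 chkD3_67

theorem chkD3_71 : checkAlt 2 (envAlts 6 eEnvD3 [eTop, eBot] [345384, 34538400]) (.cut 1 (.cut 0 (.cut 1 (.leaf 2) (.leaf 1)) (.leaf 2)) (.leaf 1))
    [⟨4, 5, 16⟩, ⟨0, 1, 1⟩] = true := checkAlt_cut chkD3_69 chkD3_70

theorem chkD3_73 : checkAlt 2 (envAlts 6 eEnvD3 [eTop, eBot] [345384, 34538400]) (.cut 0 (.cut 1 (.cut 0 (.cut 1 (.leaf 2) (.leaf 1)) (.leaf 2)) (.leaf 1)) (.leaf 2))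
    [⟨2, 3, 8⟩, ⟨0, 1, 1⟩] = true := checkAlt_cut chkD3_71 chkD3_72

theorem chkD3_75 : checkAlt 2 (envAlts 6 eEnvD3 [eTop, eBot] [345384, 34538400]) (.cut 0 (.cut 0 (.cut 1 (.cut 0 (.cut 1 (.leaf 2) (.leaf 1)) (.leaf 2)) (.leaf 1)) (.leaf 2)) (.leaf 2))
    [⟨1, 2, 4⟩, ⟨0, 1, 1⟩] = true := checkAlt_cut chkD3_73 chkD3_74

theorem chkD3_76 : checkAlt 2 (envAlts 6 eEnvD3 [eTop, eBot] [345384, 34538400]) (.cut 0 (.cut 0 (.cut 0 (.leaf 0) (.cut 1 (.cut 0 (.leaf 0) (.cut 1 (.leaf 0) (.cut 0 (.leaf 0) (.cut 1 (.leaf 0) (.leaf 4))))) (.cut 0 (.cut 1 (.cut 0 (.leaf 0) (.cut 1 (.leaf 0) (.cut 0 (.leaf 0) (.cut 1 (.cut 0 (.leaf 0) (.leaf 4)) (.leaf 4))))) (.cut 0 (.cut 1 (.leaf 0) (.cut 0 (.leaf 0) (.cut 1 (.leaf 0) (.cut 0 (.leaf 0) (.leaf 4))))) (.cut 1 (.cut 0 (.cut 1 (.cut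 0 (.leaf 0) (.leaf 4)) (.cut 0 (.leaf 0) (.leaf 4))) (.leaf 1)) (.cut 0 (.cut 1 (.leaf 4) (.leaf 1)) (.leaf 1))))) (.cut 1 (.cut 0 (.cut 1 (.cut 0 (.cut 1 (.leaf 0) (.leaf 4)) (.leaf 4)) (.leaf 1)) (.leaf 1)) (.leaf 1))))) (.cut 0 (.cut 1 (.cut 0 (.cut 1 (.leaf 0) (.cut 0 (.cut 1 (.leaf 0) (.leaf 1)) (.leaf 1))) (.cut 1 (.leaf 0) (.leaf 1))) (.leaf 1)) (.cut 1 (.cut 0 (.cut 1 (.cut 0 (.leaf 0) (.cut 1 (.leaf 0) (.leaf 1))) (.leaf 1)) (.cut 1 (.cut 0 (.cut 1 (.cut 0 (.cut 1 (.cut 0 (.leaf 0) (.cut 1 (.cut 0 (.leaf 6) (.leaf 2)) (.leaf 0))) (.leaf 0)) (.cut 1 (.cut 0 (.cut 1 (.leaf 2) (.cut 0 (.leaf 6) (.leaf 2))) (.leaf 2)) (.leaf 1))) (.leaf 1)) (.cut 1 (.leaf 2) (.leaf 1))) (.leaf 1))) (.leaf 1)))) (.cut 0 (.cut 0 (.cut 1 (.cut 0 (.cut 1 (.leaf 2) (.leaf 1)) (.leaf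 2)) (.leaf 1)) (.leaf 2)) (.leaf 2)))
    [⟨0, 1, 2⟩, ⟨0, 1, 1⟩] = true := checkAlt_cut chkD3_68 chkD3_75

theorem chkD3 : checkAlt 2 (envAlts 6 eEnvD3 [eTop, eBot] [345384, 34538400]) (.cut 0 (.cut 0 (.cut 0 (.cut 0 (.leaf 0) (.cut 1 (.cut 0 (.leaf 0) (.cut 1 (.leaf 0) (.cut 0 (.leaf 0) (.cut 1 (.leaf 0) (.leaf 4))))) (.cut 0 (.cut 1 (.cut 0 (.leaf 0) (.cut 1 (.leaf 0) (.cut 0 (.leaf 0) (.cut 1 (.cut 0 (.leaf 0) (.leaf 4)) (.leaf 4))))) (.cut 0 (.cut 1 (.leaf 0) (.cut 0 (.leaf 0) (.cut 1 (.leaf 0) (.cut 0 (.leaf 0) (.leaf 4))))) (.cut 1 (.cut 0 (.cut 1 (.cut 0 (.leaf 0) (.leaf 4)) (.cut 0 (.leaf 0) (.leaf 4))) (.leaf 1)) (.cut 0 (.cut 1 (.leaf 4) (.leaf 1)) (.leaf 1))))) (.cut 1 (.cut 0 (.cut 1 (.cut 0 (.cut 1 (.leaf 0) (.leaf 4)) (.leaf 4)) (.leaf 1)) (.leaf 1))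 (.leaf 1))))) (.cut 0 (.cut 1 (.cut 0 (.cut 1 (.leaf 0) (.cut 0 (.cut 1 (.leaf 0) (.leaf 1)) (.leaf 1))) (.cut 1 (.leaf 0) (.leaf 1))) (.leaf 1)) (.cut 1 (.cut 0 (.cut 1 (.cut 0 (.leaf 0) (.cut 1 (.leaf 0) (.leaf 1))) (.leaf 1)) (.cut 1 (.cut 0 (.cut 1 (.cut 0 (.cut 1 (.cut 0 (.leaf 0) (.cut 1 (.cut 0 (.leaf 6) (.leaf 2)) (.leaf 0))) (.leaf 0)) (.cut 1 (.cut 0 (.cut 1 (.leaf 2) (.cut 0 (.leaf 6) (.leaf 2))) (.leaf 2)) (.leaf 1))) (.leaf 1)) (.cut 1 (.leaf 2) (.leaf 1))) (.leaf 1))) (.leaf 1)))) (.cut 0 (.cut 0 (.cut 1 (.cut 0 (.cut 1 (.leaf 2) (.leaf 1)) (.leaf 2)) (.leaf 1)) (.leaf 2)) (.leaf 2))) (.leaf 2))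
    [⟨0, 1, 1⟩, ⟨0, 1, 1⟩] = true := checkAlt_cut chkD3_76 chkD3_77

end Vale.Agent.P154.NegNine
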