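import Vale.Agent.P154.NegNine.EnvD5p0

/-!
P154 NegNine: certificate of envelope D5 (generated).
-/

namespace Vale.Agent.P154.NegNine

open PolyCheck

end Vale.Agent.P154.NegNine
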