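import Vale.Agent.P154.NegNine.Data

/-!
P154 NegNine: part of the certificate of envelope G (generated).
-/

namespace Vale.Agent.P154.NegNine

open PolyCheck

theorem chkG_7 : checkAlt 2 (envAlts 6 eEnvG [eTop, eBot] [101227, 10122732]) (.cut 0 (.cut 1 (.leaf 2) (.leaf 1)) (.leaf 2))
    [⟨2, 3, 8⟩, ⟨0, 1, 2⟩] = true := by
  decide +kernel

theorem chkG_8 : checkAlt 2 (envAlts 6 eEnvG [eTop, eBot] [101227, 10122732]) (.leaf 1)
    [⟨2, 3, 8⟩, ⟨1, 2, 2⟩] = true := by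
  decide +kernel

end Vale.Agent.P154.NegNine
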