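import Vale.Agent.P154.NegNine.EnvGp0
import Vale.Agent.P154.NegNine.EnvGp1
import Vale.Agent.P154.NegNine.EnvGp2
import Vale.Agent.P154.NegNine.EnvGp3

/-!
P154 NegNine: certificate of envelope G (generated).
-/

namespace Vale.Agent.P154.NegNine

open PolyCheck

theorem chkG_3 : checkAlt 2 (envAlts 6 eEnvG [eTop, eBot] [101227, 10122732]) (.cut 0 (.cut 1 (.leaf 0) (.leaf 3)) (.cut 1 (.leaf 0) (.leaf 1)))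
    [⟨1, 2, 8⟩, ⟨0, 1, 2⟩] = true := checkAlt_cut chkG_1 chkG_2

theorem chkG_5 : checkAlt 2 (envAlts 6 eEnvG [eTop, eBot] [101227, 10122732]) (.cut 1 (.cut 0 (.cut 1 (.leaf 0) (.leaf 3)) (.cut 1 (.leaf 0) (.leaf 1))) (.leaf 1))
    [⟨1, 2, 8⟩, ⟨0, 1, 1⟩] = true := checkAlt_cut chkG_3 chkG_4

theorem chkG_6 : checkAlt 2 (envAlts 6 eEnvG [eTop, eBot] [101227, 10122732]) (.cut 0 (.leaf 0) (.cut 1 (.cut 0 (.cut 1 (.leaf 0) (.leaf 3)) (.cut 1 (.leaf 0) (.leaf 1))) (.leaf 1)))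
    [⟨0, 1, 4⟩, ⟨0, 1, 1⟩] = true := checkAlt_cut chkG_0 chkG_5

theorem chkG_9 : checkAlt 2 (envAlts 6 eEnvG [eTop, eBot] [101227, 10122732]) (.cut 1 (.cut 0 (.cut 1 (.leaf 2) (.leaf 1)) (.leaf 2)) (.leaf 1))
    [⟨2, 3, 8⟩, ⟨0, 1, 1⟩] = true := checkAlt_cut chkG_7 chkG_8

theorem chkG_11 : checkAlt 2 (envAlts 6 eEnvG [eTop, eBot] [101227, 10122732]) (.cut 0 (.cut 1 (.cut 0 (.cut 1 (.leaf 2) (.leaf 1)) (.leaf 2)) (.leaf 1)) (.leaf 2))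
    [⟨1, 2, 4⟩, ⟨0, 1, 1⟩] = true := checkAlt_cut chkG_9 chkG_10

theorem chkG_12 : checkAlt 2 (envAlts 6 eEnvG [eTop, eBot] [101227, 10122732]) (.cut 0 (.cut 0 (.leaf 0) (.cut 1 (.cut 0 (.cut 1 (.leaf 0) (.leaf 3)) (.cut 1 (.leaf 0) (.leaf 1))) (.leaf 1))) (.cut 0 (.cut 1 (.cut 0 (.cut 1 (.leaf 2) (.leaf 1)) (.leaf 2)) (.leaf 1)) (.leaf 2)))
    [⟨0, 1, 2⟩, ⟨0, 1, 1⟩] = true := checkAlt_cut chkG_6 chkG_11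

theorem chkG : checkAlt 2 (envAlts 6 eEnvG [eTop, eBot] [101227, 10122732]) (.cut 0 (.cut 0 (.cut 0 (.leaf 0) (.cut 1 (.cut 0 (.cut 1 (.leaf 0) (.leaf 3)) (.cut 1 (.leaf 0) (.leaf 1))) (.leaf 1))) (.cut 0 (.cut 1 (.cut 0 (.cut 1 (.leaf 2) (.leaf 1)) (.leaf 2)) (.leaf 1)) (.leaf 2))) (.leaf 2))
    [⟨0, 1, 1⟩, ⟨0, 1, 1⟩] = true := checkAlt_cut chkG_12 chkG_13

end Vale.Agent.P154.NegNine
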