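import Vale.Agent.P154.NegNine.Data

/-!
P154 NegNine: part of the certificate of envelope Q (generated).
-/

namespace Vale.Agent.P154.NegNine

open PolyCheck

theorem chkQ_18 : checkAlt 2 (envAlts 7 eEnvQ [eTop, eBot] [2266708162959, 226670816295936]) (.leaf 0)
    [⟨114, 115, 512⟩, ⟨5, 6, 128⟩] = true := by
  decide +kernel

theorem chkQ_20 : checkAlt 2 (envAlts 7 eEnvQ [eTop, eBot] [2266708162959, 226670816295936]) (.leaf 6)
    [⟨115, 116, 512⟩, ⟨2, 3, 64⟩] = true := by
  decide +kernel

end Vale.Agent.P154.NegNine
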