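import Vale.Agent.P154.NegNine.EnvQp0
import Vale.Agent.P154.NegNine.EnvQp1
import Vale.Agent.P154.NegNine.EnvQp2
import Vale.Agent.P154.NegNine.EnvQp3
import Vale.Agent.P154.NegNine.EnvQp4
import Vale.Agent.P154.NegNine.EnvQp5
import Vale.Agent.P154.NegNine.EnvQp6
import Vale.Agent.P154.NegNine.EnvQp7
import Vale.Agent.P154.NegNine.EnvQp8
import Vale.Agent.P154.NegNine.EnvQp9
import Vale.Agent.P154.NegNine.EnvQp10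
import Vale.Agent.P154.NegNine.EnvQp11
import Vale.Agent.P154.NegNine.EnvQp12
import Vale.Agent.P154.NegNine.EnvQp13
import Vale.Agent.P154.NegNine.EnvQp14

/-!
P154 NegNine: certificate of envelope Q (generated).
-/

namespace Vale.Agent.P154.NegNine

open PolyCheck

theorem chkQ_7 : checkAlt 2 (envAlts 7 eEnvQ [eTop, eBot] [2266708162959, 226670816295936]) (.cut 0 (.leaf 0) (.leaf 6))
    [⟨113, 114, 512⟩, ⟨1, 2, 128⟩] = true := checkAlt_cut chkQ_5 chkQ_6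

theorem chkQ_8 : checkAlt 2 (envAlts 7 eEnvQ [eTop, eBot] [2266708162959, 226670816295936]) (.cut 1 (.leaf 6) (.cut 0 (.leaf 0) (.leaf 6)))
    [⟨113, 114, 512⟩, ⟨0, 1, 64⟩] = true := checkAlt_cut chkQ_4 chkQ_7

theorem chkQ_9 : checkAlt 2 (envAlts 7 eEnvQ [eTop, eBot] [2266708162959, 226670816295936]) (.cut 0 (.leaf 0) (.cut 1 (.leaf 6) (.cut 0 (.leaf 0) (.leaf 6))))
    [⟨56, 57, 256⟩, ⟨0, 1, 64⟩] = true := checkAlt_cut chkQ_3 chkQ_8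

theorem chkQ_11 : checkAlt 2 (envAlts 7 eEnvQ [eTop, eBot] [2266708162959, 226670816295936]) (.cut 1 (.cut 0 (.leaf 0) (.cut 1 (.leaf 6) (.cut 0 (.leaf 0) (.leaf 6)))) (.leaf 0))
    [⟨56, 57, 256⟩, ⟨0, 1, 32⟩] = true := checkAlt_cut chkQ_9 chkQ_10

theorem chkQ_13 : checkAlt 2 (envAlts 7 eEnvQ [eTop, eBot] [2266708162959, 226670816295936]) (.cut 0 (.cut 1 (.cut 0 (.leaf 0) (.cut 1 (.leaf 6) (.cut 0 (.leaf 0) (.leaf 6)))) (.leaf 0)) (.leaf 6))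
    [⟨28, 29, 128⟩, ⟨0, 1, 32⟩] = true := checkAlt_cut chkQ_11 chkQ_12

theorem chkQ_17 : checkAlt 2 (envAlts 7 eEnvQ [eTop, eBot] [2266708162959, 226670816295936]) (.cut 0 (.leaf 0) (.leaf 6))
    [⟨114, 115, 512⟩, ⟨4, 5, 128⟩] = true := checkAlt_cut chkQ_15 chkQ_16

theorem chkQ_19 : checkAlt 2 (envAlts 7 eEnvQ [eTop, eBot] [2266708162959, 226670816295936]) (.cut 1 (.cut 0 (.leaf 0) (.leaf 6)) (.leaf 0))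
    [⟨114, 115, 512⟩, ⟨2, 3, 64⟩] = true := checkAlt_cut chkQ_17 chkQ_18

theorem chkQ_21 : checkAlt 2 (envAlts 7 eEnvQ [eTop, eBot] [2266708162959, 226670816295936]) (.cut 0 (.cut 1 (.cut 0 (.leaf 0) (.leaf 6)) (.leaf 0)) (.leaf 6))
    [⟨57, 58, 256⟩, ⟨2, 3, 64⟩] = true := checkAlt_cut chkQ_19 chkQ_20

theorem chkQ_25 : checkAlt 2 (envAlts 7 eEnvQ [eTop, eBot] [2266708162959, 226670816295936]) (.cut 1 (.leaf 6) (.leaf 0))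
    [⟨115, 116, 512⟩, ⟨3, 4, 64⟩] = true := checkAlt_cut chkQ_23 chkQ_24

theorem chkQ_26 : checkAlt 2 (envAlts 7 eEnvQ [eTop, eBot] [2266708162959, 226670816295936]) (.cut 0 (.leaf 0) (.cut 1 (.leaf 6) (.leaf 0)))
    [⟨57, 58, 256⟩, ⟨3, 4, 64⟩] = true := checkAlt_cut chkQ_22 chkQ_25

theorem chkQ_27 : checkAlt 2 (envAlts 7 eEnvQ [eTop, eBot] [2266708162959, 226670816295936]) (.cut 1 (.cut 0 (.cut 1 (.cut 0 (.leaf 0) (.leaf 6)) (.leaf 0)) (.leaf 6)) (.cut 0 (.leaf 0) (.cut 1 (.leaf 6) (.leaf 0))))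
    [⟨57, 58, 256⟩, ⟨1, 2, 32⟩] = true := checkAlt_cut chkQ_21 chkQ_26

theorem chkQ_28 : checkAlt 2 (envAlts 7 eEnvQ [eTop, eBot] [2266708162959, 226670816295936]) (.cut 0 (.leaf 0) (.cut 1 (.cut 0 (.cut 1 (.cut 0 (.leaf 0) (.leaf 6)) (.leaf 0)) (.leaf 6)) (.cut 0 (.leaf 0) (.cut 1 (.leaf 6) (.leaf 0)))))
    [⟨28, 29, 128⟩, ⟨1, 2, 32⟩] = true := checkAlt_cut chkQ_14 chkQ_27

theorem chkQ_29 : checkAlt 2 (envAlts 7 eEnvQ [eTop, eBot] [2266708162959, 226670816295936]) (.cut 1 (.cut 0 (.cut 1 (.cut 0 (.leaf 0) (.cut 1 (.leaf 6) (.cut 0 (.leaf 0) (.leaf 6)))) (.leaf 0)) (.leaf 6)) (.cut 0 (.leaf 0) (.cut 1 (.cut 0 (.cut 1 (.cut 0 (.leaf 0) (.leaf 6)) (.leaf 0)) (.leaf 6)) (.cut 0 (.leaf 0) (.cut 1 (.leaf 6) (.leaf 0))))))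
    [⟨28, 29, 128⟩, ⟨0, 1, 16⟩] = true := checkAlt_cut chkQ_13 chkQ_28

theorem chkQ_32 : checkAlt 2 (envAlts 7 eEnvQ [eTop, eBot] [2266708162959, 226670816295936]) (.cut 1 (.leaf 2) (.leaf 6))
    [⟨29, 30, 128⟩, ⟨0, 1, 16⟩] = true := checkAlt_cut chkQ_30 chkQ_31

theorem chkQ_33 : checkAlt 2 (envAlts 7 eEnvQ [eTop, eBot] [2266708162959, 226670816295936]) (.cut 0 (.cut 1 (.cut 0 (.cut 1 (.cut 0 (.leaf 0) (.cut 1 (.leaf 6) (.cut 0 (.leaf 0) (.leaf 6)))) (.leaf 0)) (.leaf 6)) (.cut 0 (.leaf 0) (.cut 1 (.cut 0 (.cut 1 (.cut 0 (.leaf 0) (.leaf 6)) (.leaf 0)) (.leaf 6)) (.cut 0 (.leaf 0) (.cut 1 (.leaf 6) (.leaf 0)))))) (.cut 1 (.leaf 2) (.leaf 6)))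
    [⟨14, 15, 64⟩, ⟨0, 1, 16⟩] = true := checkAlt_cut chkQ_29 chkQ_32

theorem chkQ_35 : checkAlt 2 (envAlts 7 eEnvQ [eTop, eBot] [2266708162959, 226670816295936]) (.cut 1 (.cut 0 (.cut 1 (.cut 0 (.cut 1 (.cut 0 (.leaf 0) (.cut 1 (.leaf 6) (.cut 0 (.leaf 0) (.leaf 6)))) (.leaf 0)) (.leaf 6)) (.cut 0 (.leaf 0) (.cut 1 (.cut 0 (.cut 1 (.cut 0 (.leaf 0) (.leaf 6)) (.leaf 0)) (.leaf 6)) (.cut 0 (.leaf 0) (.cut 1 (.leaf 6) (.leaf 0)))))) (.cut 1 (.leaf 2) (.leaf 6))) (.leaf 1))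
    [⟨14, 15, 64⟩, ⟨0, 1, 8⟩] = true := checkAlt_cut chkQ_33 chkQ_34

theorem chkQ_37 : checkAlt 2 (envAlts 7 eEnvQ [eTop, eBot] [2266708162959, 226670816295936]) (.cut 0 (.cut 1 (.cut 0 (.cut 1 (.cut 0 (.cut 1 (.cut 0 (.leaf 0) (.cut 1 (.leaf 6) (.cut 0 (.leaf 0) (.leaf 6)))) (.leaf 0)) (.leaf 6)) (.cut 0 (.leaf 0) (.cut 1 (.cut 0 (.cut 1 (.cut 0 (.leaf 0) (.leaf 6)) (.leaf 0)) (.leaf 6)) (.cut 0 (.leaf 0) (.cut 1 (.leaf 6) (.leaf 0)))))) (.cut 1 (.leaf 2) (.leaf 6))) (.leaf 1)) (.leaf 2))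
    [⟨7, 8, 32⟩, ⟨0, 1, 8⟩] = true := checkAlt_cut chkQ_35 chkQ_36

theorem chkQ_39 : checkAlt 2 (envAlts 7 eEnvQ [eTop, eBot] [2266708162959, 226670816295936]) (.cut 1 (.cut 0 (.cut 1 (.cut 0 (.cut 1 (.cut 0 (.cut 1 (.cut 0 (.leaf 0) (.cut 1 (.leaf 6) (.cut 0 (.leaf 0) (.leaf 6)))) (.leaf 0)) (.leaf 6)) (.cut 0 (.leaf 0) (.cut 1 (.cut 0 (.cut 1 (.cut 0 (.leaf 0) (.leaf 6)) (.leaf 0)) (.leaf 6)) (.cut 0 (.leaf 0) (.cut 1 (.leaf 6) (.leaf 0)))))) (.cut 1 (.leaf 2) (.leaf 6))) (.leaf 1)) (.leaf 2)) (.leaf 1))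
    [⟨7, 8, 32⟩, ⟨0, 1, 4⟩] = true := checkAlt_cut chkQ_37 chkQ_38

theorem chkQ_40 : checkAlt 2 (envAlts 7 eEnvQ [eTop, eBot] [2266708162959, 226670816295936]) (.cut 0 (.leaf 0) (.cut 1 (.cut 0 (.cut 1 (.cut 0 (.cut 1 (.cut 0 (.cut 1 (.cut 0 (.leaf 0) (.cut 1 (.leaf 6) (.cut 0 (.leaf 0) (.leaf 6)))) (.leaf 0)) (.leaf 6)) (.cut 0 (.leaf 0) (.cut 1 (.cut 0 (.cut 1 (.cut 0 (.leaf 0) (.leaf 6)) (.leaf 0)) (.leaf 6)) (.cut 0 (.leaf 0) (.cut 1 (.leaf 6) (.leaf 0)))))) (.cut 1 (.leaf 2) (.leaf 6))) (.leaf 1)) (.leaf 2)) (.leaf 1)))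
    [⟨3, 4, 16⟩, ⟨0, 1, 4⟩] = true := checkAlt_cut chkQ_2 chkQ_39

theorem chkQ_42 : checkAlt 2 (envAlts 7 eEnvQ [eTop, eBot] [2266708162959, 226670816295936]) (.cut 1 (.cut 0 (.leaf 0) (.cut 1 (.cut 0 (.cut 1 (.cut 0 (.cut 1 (.cut 0 (.cut 1 (.cut 0 (.leaf 0) (.cut 1 (.leaf 6) (.cut 0 (.leaf 0) (.leaf 6)))) (.leaf 0)) (.leaf 6)) (.cut 0 (.leaf 0) (.cut 1 (.cut 0 (.cut 1 (.cut 0 (.leaf 0) (.leaf 6)) (.leaf 0)) (.leaf 6)) (.cut 0 (.leaf 0) (.cut 1 (.leaf 6) (.leaf 0)))))) (.cut 1 (.leaf 2) (.leaf 6))) (.leaf 1)) (.leaf 2)) (.leaf 1))) (.leaf 0))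
    [⟨3, 4, 16⟩, ⟨0, 1, 2⟩] = true := checkAlt_cut chkQ_40 chkQ_41

theorem chkQ_43 : checkAlt 2 (envAlts 7 eEnvQ [eTop, eBot] [2266708162959, 226670816295936]) (.cut 0 (.leaf 0) (.cut 1 (.cut 0 (.leaf 0) (.cut 1 (.cut 0 (.cut 1 (.cut 0 (.cut 1 (.cut 0 (.cut 1 (.cut 0 (.leaf 0) (.cut 1 (.leaf 6) (.cut 0 (.leaf 0) (.leaf 6)))) (.leaf 0)) (.leaf 6)) (.cut 0 (.leaf 0) (.cut 1 (.cut 0 (.cut 1 (.cut 0 (.leaf 0) (.leaf 6)) (.leaf 0)) (.leaf 6)) (.cut 0 (.leaf 0) (.cut 1 (.leaf 6) (.leaf 0)))))) (.cut 1 (.leaf 2) (.leaf 6))) (.leaf 1)) (.leaf 2)) (.leaf 1))) (.leaf 0)))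
    [⟨1, 2, 8⟩, ⟨0, 1, 2⟩] = true := checkAlt_cut chkQ_1 chkQ_42

theorem chkQ_45 : checkAlt 2 (envAlts 7 eEnvQ [eTop, eBot] [2266708162959, 226670816295936]) (.cut 1 (.cut 0 (.leaf 0) (.cut 1 (.cut 0 (.leaf 0) (.cut 1 (.cut 0 (.cut 1 (.cut 0 (.cut 1 (.cut 0 (.cut 1 (.cut 0 (.leaf 0) (.cut 1 (.leaf 6) (.cut 0 (.leaf 0) (.leaf 6)))) (.leaf 0)) (.leaf 6)) (.cut 0 (.leaf 0) (.cut 1 (.cut 0 (.cut 1 (.cut 0 (.leaf 0) (.leaf 6)) (.leaf 0)) (.leaf 6)) (.cut 0 (.leaf 0) (.cut 1 (.leaf 6) (.leaf 0)))))) (.cut 1 (.leaf 2) (.leaf 6))) (.leaf 1)) (.leaf 2)) (.leaf 1))) (.leaf 0))) (.leaf 0))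
    [⟨1, 2, 8⟩, ⟨0, 1, 1⟩] = true := checkAlt_cut chkQ_43 chkQ_44

theorem chkQ_46 : checkAlt 2 (envAlts 7 eEnvQ [eTop, eBot] [2266708162959, 226670816295936]) (.cut 0 (.leaf 0) (.cut 1 (.cut 0 (.leaf 0) (.cut 1 (.cut 0 (.leaf 0) (.cut 1 (.cut 0 (.cut 1 (.cut 0 (.cut 1 (.cut 0 (.cut 1 (.cut 0 (.leaf 0) (.cut 1 (.leaf 6) (.cut 0 (.leaf 0) (.leaf 6)))) (.leaf 0)) (.leaf 6)) (.cut 0 (.leaf 0) (.cut 1 (.cut 0 (.cut 1 (.cut 0 (.leaf 0) (.leaf 6)) (.leaf 0)) (.leaf 6)) (.cut 0 (.leaf 0) (.cut 1 (.leaf 6) (.leaf 0)))))) (.cut 1 (.leaf 2) (.leaf 6))) (.leaf 1)) (.leaf 2)) (.leaf 1))) (.leaf 0))) (.leaf 0)))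
    [⟨0, 1, 4⟩, ⟨0, 1, 1⟩] = true := checkAlt_cut chkQ_0 chkQ_45

theorem chkQ_49 : checkAlt 2 (envAlts 7 eEnvQ [eTop, eBot] [2266708162959, 226670816295936]) (.cut 1 (.leaf 2) (.leaf 0))
    [⟨4, 5, 16⟩, ⟨0, 1, 2⟩] = true := checkAlt_cut chkQ_47 chkQ_48

theorem chkQ_51 : checkAlt 2 (envAlts 7 eEnvQ [eTop, eBot] [2266708162959, 226670816295936]) (.cut 0 (.cut 1 (.leaf 2) (.leaf 0)) (.leaf 2))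
    [⟨2, 3, 8⟩, ⟨0, 1, 2⟩] = true := checkAlt_cut chkQ_49 chkQ_50

theorem chkQ_53 : checkAlt 2 (envAlts 7 eEnvQ [eTop, eBot] [2266708162959, 226670816295936]) (.cut 1 (.cut 0 (.cut 1 (.leaf 2) (.leaf 0)) (.leaf 2)) (.leaf 0))
    [⟨2, 3, 8⟩, ⟨0, 1, 1⟩] = true := checkAlt_cut chkQ_51 chkQ_52

theorem chkQ_55 : checkAlt 2 (envAlts 7 eEnvQ [eTop, eBot] [2266708162959, 226670816295936]) (.cut 0 (.cut 1 (.cut 0 (.cut 1 (.leaf 2) (.leaf 0)) (.leaf 2)) (.leaf 0)) (.leaf 2))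
    [⟨1, 2, 4⟩, ⟨0, 1, 1⟩] = true := checkAlt_cut chkQ_53 chkQ_54

theorem chkQ_56 : checkAlt 2 (envAlts 7 eEnvQ [eTop, eBot] [2266708162959, 226670816295936]) (.cut 0 (.cut 0 (.leaf 0) (.cut 1 (.cut 0 (.leaf 0) (.cut 1 (.cut 0 (.leaf 0) (.cut 1 (.cut 0 (.cut 1 (.cut 0 (.cut 1 (.cut 0 (.cut 1 (.cut 0 (.leaf 0) (.cut 1 (.leaf 6) (.cut 0 (.leaf 0) (.leaf 6)))) (.leaf 0)) (.leaf 6)) (.cut 0 (.leaf 0) (.cut 1 (.cut 0 (.cut 1 (.cut 0 (.leaf 0) (.leaf 6)) (.leaf 0)) (.leaf 6)) (.cut 0 (.leaf 0) (.cut 1 (.leaf 6) (.leaf 0)))))) (.cut 1 (.leaf 2) (.leaf 6))) (.leaf 1)) (.leaf 2)) (.leaf 1))) (.leaf 0))) (.leaf 0))) (.cut 0 (.cut 1 (.cut 0 (.cut 1 (.leaf 2) (.leaf 0)) (.leaf 2)) (.leaf 0)) (.leaf 2)))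
    [⟨0, 1, 2⟩, ⟨0, 1, 1⟩] = true := checkAlt_cut chkQ_46 chkQ_55

theorem chkQ : checkAlt 2 (envAlts 7 eEnvQ [eTop, eBot] [2266708162959, 226670816295936]) (.cut 0 (.cut 0 (.cut 0 (.leaf 0) (.cut 1 (.cut 0 (.leaf 0) (.cut 1 (.cut 0 (.leaf 0) (.cut 1 (.cut 0 (.cut 1 (.cut 0 (.cut 1 (.cut 0 (.cut 1 (.cut 0 (.leaf 0) (.cut 1 (.leaf 6) (.cut 0 (.leaf 0) (.leaf 6)))) (.leaf 0)) (.leaf 6)) (.cut 0 (.leaf 0) (.cut 1 (.cut 0 (.cut 1 (.cut 0 (.leaf 0) (.leaf 6)) (.leaf 0)) (.leaf 6)) (.cut 0 (.leaf 0) (.cut 1 (.leaf 6) (.leaf 0)))))) (.cut 1 (.leaf 2) (.leaf 6))) (.leaf 1)) (.leaf 2)) (.leaf 1))) (.leaf 0))) (.leaf 0))) (.cut 0 (.cut 1 (.cut 0 (.cut 1 (.leaf 2) (.leaf 0)) (.leaf 2)) (.leaf 0)) (.leaf 2))) (.leaf 2))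
    [⟨0, 1, 1⟩, ⟨0, 1, 1⟩] = true := checkAlt_cut chkQ_56 chkQ_57

end Vale.Agent.P154.NegNine
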