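import Vale.Agent.P154.NegNine.EnvV
import Vale.Agent.P154.NegNine.EnvG
import Vale.Agent.P154.NegNine.EnvQ
import Vale.Agent.P154.NegNine.EnvD1
import Vale.Agent.P154.NegNine.EnvD2
import Vale.Agent.P154.NegNine.EnvD3
import Vale.Agent.P154.NegNine.EnvD4
import Vale.Agent.P154.NegNine.EnvD5

/-!
P154 NegNine: the envelopes, for deviations outside the corner.
-/

namespace Vale.Agent.P154.NegNine

open PolyCheck

/-- The atoms. -/
noncomputable def atom (j : Fin 6) : Fin 3 → ℝ := fun i => (atomI j i : ℝ) / 9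

/-- The coefficients. -/
noncomputable def coef (j : Fin 6) : ℝ := (coefI j : ℝ) / 1000000

/-- The tangent ratios. -/
noncomputable def rat (j : Fin 6) : ℝ := (ratI j : ℝ) / 1000

lemma atomI_sum (j : Fin 6) : atomI j 0 + atomI j 1 + atomI j 2 = 9 := by
  fin_cases j <;> decide

lemma Roots.vert_atom {v y : Fin 3 → ℝ} {σ : Equiv.Perm (Fin 3)} (h : Roots v y σ) (j : Fin 6) :
    NegEnd.vert (atom j) v = tau (atomI j) y :=
  h.eqVert _ (atomI_sum j)

lemma coef_vals : coef 0 = -80707 / 1000000 ∧ coef 1 = 123789 / 1000000 ∧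
    coef 2 = -219516 / 1000000 ∧ coef 3 = 162070 / 1000000 ∧ coef 4 = -182441 / 1000000 ∧
    coef 5 = 231475 / 1000000 := by
  simp [coef, coefI]

lemma rat_vals : rat 0 = 1 ∧ rat 1 = 292 / 1000 ∧ rat 2 = 489 / 1000 ∧ rat 3 = 721 / 1000 ∧
    rat 4 = 882 / 1000 ∧ rat 5 = 885 / 1000 := by
  simp [rat, ratI]

/-- The envelope at a vertex. -/
theorem envelope_vertex {u : Fin 3 → ℝ} (hu : Dev u) (hM : ∀ i, u i ≤ 17 / 10) :
    468645 / 81000000 * Neg3.S u + sval L_Vh (Neg3.S u) (Neg3.C u) / 81000000 ≤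
      ∑ j, coef j * NegEnd.vert (atom j) u := by
  obtain ⟨y, σ, h⟩ := exists_roots hu
  obtain ⟨p, z, hp, hp1, hz, hz1, hy⟩ := h.exists_chart
  have hY : 0 < ysum y := h.pos
  have hc := chartEx_eval p z
  rw [← hy] at hc
  have hr : 3 / ysum y - 1 ≤ 17 / 10 := by
    have h0 := h.comp 0
    rw [h.top, one_pow, mul_one] at h0
    linarith [hM (σ 0)]
  rw [sub_le_iff_le_add, div_le_iff₀ hY] at hr
  have ho : ∀ o ∈ [eCor], o.eval (pt [p, z]) ≤ 0 := fun o hom => by
    simp only [List.mem_singleton] at hom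
    subst hom
    simp only [eCor, eval_sub, eval_mul, eval_c, eSum_eval, hc]
    push_cast
    linarith
  have hk := env_nonneg (by decide) chkV hp hp1 hz hz1 (hy ▸ hY.le) ho
  have hne : ysum (fun i => (chartEx i).eval (pt [p, z])) ≠ 0 := by rw [hc]; exact hY.ne'
  simp only [eEnvV, eval_add, eval_sub, eval_mul, eval_pow, eval_c, eSum_eval,
    eT_eval chartEx _ _ hne, polEx_eval chartEx (pt [p, z]) 8 4 hne ((468645, 1, 0) :: L_Vh) (by decide), hc,
    ← h.eqS, ← h.eqC] at hk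
  simp only [Fin.sum_univ_six, h.vert_atom]
  obtain ⟨c0, c1, c2, c3, c4, c5⟩ := coef_vals
  rw [c0, c1, c2, c3, c4, c5]
  refine le_of_mul_le_mul_left ?_ (mul_pos (show (0 : ℝ) < 104976000000 by norm_num)
    (pow_pos hY 8))
  simp only [sval] at hk
  push_cast at hk
  linarith

/-- The envelopes after one edge. -/
theorem envelope_edge {v : Fin 3 → ℝ} (hv : Dev v) (hM : ∀ i, v i ≤ 1 / 2)
    (hm : ∀ i, -(17 / 20) ≤ v i) :
    ∑ j, coef j * NegEnd.vert (atom j) v ≤
        468645 / 81000000 * Neg3.S v + sval L_Gh (Neg3.S v) (Neg3.C v) / 81000000 ∧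
      sval L_D1 (Neg3.S v) (Neg3.C v) / 81000000 ≤
        NegEnd.vert (atom 1) v - 292 / 1000 * NegEnd.vert (atom 0) v ∧
      NegEnd.vert (atom 2) v - 489 / 1000 * NegEnd.vert (atom 0) v ≤
        sval L_D2 (Neg3.S v) (Neg3.C v) / 81000000 ∧
      sval L_D3 (Neg3.S v) (Neg3.C v) / 81000000 ≤
        NegEnd.vert (atom 3) v - 721 / 1000 * NegEnd.vert (atom 0) v ∧
      NegEnd.vert (atom 4) v - 882 / 1000 * NegEnd.vert (atom 0) v ≤
        sval L_D4 (Neg3.S v) (Neg3.C v) / 81000000 ∧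
      sval L_D5 (Neg3.S v) (Neg3.C v) / 81000000 ≤
        NegEnd.vert (atom 5) v - 885 / 1000 * NegEnd.vert (atom 0) v ∧
      219516 / 1000000 * (NegEnd.vert (atom 2) v - 489 / 1000 * NegEnd.vert (atom 0) v) ^ 2 +
          182441 / 1000000 *
            (NegEnd.vert (atom 4) v - 882 / 1000 * NegEnd.vert (atom 0) v) ^ 2 ≤
        sval L_Q (Neg3.S v) (Neg3.C v) / 8748000000000000 := by
  obtain ⟨y, σ, h⟩ := exists_roots hv
  obtain ⟨p, z, hp, hp1, hz, hz1, hy⟩ := h.exists_chart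
  have hY : 0 < ysum y := h.pos
  have hc := chartEx_eval p z
  rw [← hy] at hc
  have hc2 : (chartEx 2).eval (pt [p, z]) = y 2 := congrFun hc 2
  have hr : 2 ≤ ysum y := by
    have h0 := h.comp 0
    rw [h.top, one_pow, mul_one] at h0
    have h1 : 3 / ysum y ≤ 3 / 2 := by linarith [hM (σ 0)]
    rw [div_le_div_iff₀ hY (by norm_num)] at h1
    linarith
  have hb : ysum y ≤ 20 * y 2 ^ 9 := by
    have h2 := h.comp 2
    have h1 : 3 / 20 ≤ 3 * y 2 ^ 9 / ysum y := by linarith [hm (σ 2)]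
    rw [le_div_iff₀ hY] at h1
    linarith
  have ho : ∀ o ∈ [eTop, eBot], o.eval (pt [p, z]) ≤ 0 := fun o hom => by
    simp only [List.mem_cons, List.not_mem_nil, or_false] at hom
    rcases hom with rfl | rfl <;>
    · simp only [eTop, eBot, eval_sub, eval_mul, eval_pow, eval_c, eSum_eval, hc, hc2]
      push_cast
      linarith
  have hY' : 0 ≤ ysum (chart p z) := hy ▸ hY.le
  have hG := env_nonneg (by decide) chkG hp hp1 hz hz1 hY' ho
  have h1 := env_nonneg (by decide) chkD1 hp hp1 hz hz1 hY' ho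
  have h2 := env_nonneg (by decide) chkD2 hp hp1 hz hz1 hY' ho
  have h3 := env_nonneg (by decide) chkD3 hp hp1 hz hz1 hY' ho
  have h4 := env_nonneg (by decide) chkD4 hp hp1 hz hz1 hY' ho
  have h5 := env_nonneg (by decide) chkD5 hp hp1 hz hz1 hY' ho
  have hQ := env_nonneg (by decide) chkQ hp hp1 hz hz1 hY' ho
  have hne : ysum (fun i => (chartEx i).eval (pt [p, z])) ≠ 0 := by rw [hc]; exact hY.ne'
  have pE := fun W M l hl => polEx_eval chartEx (pt [p, z]) W M hne l hl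
  simp only [eEnvG, eEnvD1, eEnvD2, eEnvD3, eEnvD4, eEnvD5, eEnvQ, eval_add, eval_sub, eval_mul,
    eval_pow, eval_c, eSum_eval, eT_eval chartEx _ _ hne,
    pE 7 3 ((468645, 1, 0) :: L_Gh) (by decide), pE 7 3 L_D1 (by decide), pE 7 3 L_D2 (by decide),
    pE 7 3 L_D3 (by decide), pE 7 3 L_D4 (by decide), pE 7 3 L_D5 (by decide),
    pE 8 4 L_Q (by decide), hc, ← h.eqS, ← h.eqC] at hG h1 h2 h3 h4 h5 hQ
  simp only [sval] at hG
  push_cast at hG h1 h2 h3 h4 h5 hQ
  simp only [Fin.sum_univ_six, h.vert_atom]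
  obtain ⟨c0, c1, c2, c3, c4, c5⟩ := coef_vals
  rw [c0, c1, c2, c3, c4, c5]
  have hK : (0 : ℝ) < 17496000000 := by norm_num
  refine ⟨?_, ?_, ?_, ?_, ?_, ?_, ?_⟩
  · refine le_of_mul_le_mul_left ?_ (mul_pos hK (pow_pos hY 7))
    linarith
  · refine le_of_mul_le_mul_left ?_ (mul_pos hK (pow_pos hY 7))
    linarith
  · refine le_of_mul_le_mul_left ?_ (mul_pos hK (pow_pos hY 7))
    linarith
  · refine le_of_mul_le_mul_left ?_ (mul_pos hK (pow_pos hY 7))
    linarith
  · refine le_of_mul_le_mul_left ?_ (mul_pos hK (pow_pos hY 7))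
    linarith
  · refine le_of_mul_le_mul_left ?_ (mul_pos hK (pow_pos hY 7))
    linarith
  · refine le_of_mul_le_mul_left ?_
      (mul_pos (show (0 : ℝ) < 11337408000000000000 by norm_num) (pow_pos hY 8))
    linarith

end Vale.Agent.P154.NegNine
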