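import Vale.Agent.P154.NegNine.CornerChk
import Vale.Agent.P154.NegNine.Bounds
import Vale.Agent.P154.NegNine.Envelopes

/-!
P154 NegNine: the certificate where one component exceeds `17/10`. At a vertex the combination of
atoms is at least an antitone function of the norm `σ` of the two small roots; after one edge the
norm is at most `1014/1000` times the smallest root `ω`.
-/

namespace Vale.Agent.P154.NegNine

open PolyCheck

/-- The antitone lower bound at a vertex. -/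
noncomputable def phi (s : ℝ) : ℝ := hor cornerN s / (100000000 * (1 + s ^ 9))

/-- The second order part of the certificate at the values `e` after one edge. -/
noncomputable def rem (e : Fin 6 → ℝ) (m : ℝ) : ℝ :=
  -80707 / 1000000 * sHi m + 123789 / 1000000 * sLo (292 / 1000 * m) +
    -219516 / 1000000 * sHi (489 / 1000 * m) + 162070 / 1000000 * sLo (721 / 1000 * m) +
    -182441 / 1000000 * sHi (882 / 1000 * m) + 231475 / 1000000 * sLo (885 / 1000 * m) +
    123789 / 1000000 * sD (292 / 1000 * m) * (e 1 - 292 / 1000 * e 0) +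
    -219516 / 1000000 * sD (489 / 1000 * m) * (e 2 - 489 / 1000 * e 0) +
    162070 / 1000000 * sD (721 / 1000 * m) * (e 3 - 721 / 1000 * e 0) +
    -182441 / 1000000 * sD (882 / 1000 * m) * (e 4 - 882 / 1000 * e 0) +
    231475 / 1000000 * sD (885 / 1000 * m) * (e 5 - 885 / 1000 * e 0) +
    (-219516 / 1000000 * (e 2 - 489 / 1000 * e 0) ^ 2 +
      -182441 / 1000000 * (e 4 - 882 / 1000 * e 0) ^ 2) / 2

lemma phi_antitone : AntitoneOn phi (Set.Icc 0 (4 / 5)) := by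
  have hd : ∀ s ∈ Set.Icc (0 : ℝ) (4 / 5), HasDerivAt phi
      ((horD cornerN s * (100000000 * (1 + s ^ 9)) - hor cornerN s * (100000000 * (9 * s ^ 8))) /
        (100000000 * (1 + s ^ 9)) ^ 2) s := fun s hs => by
    have h1 : HasDerivAt (fun s : ℝ => 100000000 * (1 + s ^ 9)) (100000000 * (9 * s ^ 8)) s :=
      (((hasDerivAt_pow 9 s).const_add 1).const_mul 100000000).congr_deriv (by norm_num)
    exact (hasDerivAt_hor cornerN s).div h1 (by have := hs.1; positivity)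
  refine antitoneOn_of_hasDerivWithinAt_nonpos (convex_Icc 0 _)
    (fun s hs => (hd s hs).continuousAt.continuousWithinAt)
    (fun s hs => (hd s (interior_subset hs)).hasDerivWithinAt) fun s hs => ?_
  obtain ⟨h0, h1⟩ := interior_subset hs
  refine div_nonpos_of_nonpos_of_nonneg ?_ (sq_nonneg _)
  obtain ⟨es, hes, hall⟩ := checkAlt_sound 1 _ _ _ (pt [s]) chkAnti
    (show BoxMem [⟨0, 4, 5⟩] (pt [s]) from
      ⟨by simp [Iv.Mem, pt, h0]; linarith, trivial⟩)
  simp only [List.mem_cons, List.not_mem_nil, or_false] at hes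
  subst hes
  have := hall eAnti (by simp)
  simp only [eAnti, eval_sub, eval_mul, eval_add, eval_pow, eval_c, horEx_eval, horDEx_eval,
    eval_v, pt_zero] at this
  push_cast at this
  linarith

lemma horHom_corner (s : Ex) (x : ℕ → ℝ) :
    (horHom 1000 cornerN s).eval x = 1000 ^ 9 * hor cornerN (s.eval x / 1000) := by
  simp [horHom, hor, cornerN]
  ring

/-- The lower bound of the norm is valid. -/
def eTauOK (a b : ℤ) : Ex :=
  Ex.c 1000000000000000000000000000 * (Ex.c 1 + Ex.v 0 ^ 9) - (Ex.c a + Ex.c b * Ex.v 0) ^ 9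

lemma chkTau0 : checkAlt 1 [[eTauOK 1000 0]] (.leaf 0) [⟨0, 1, 1⟩] = true := by decide +kernel

lemma chkTau1 : checkAlt 1 [[eTauOK 540 540]] (.leaf 0) [⟨0, 1, 1⟩] = true := by decide +kernel

lemma chkTau2 : checkAlt 1 [[eTauOK 747 321]]
    (.cut 0 (.leaf 0) (.cut 0 (.leaf 0) (.cut 0 (.leaf 0) (.leaf 0)))) [⟨0, 1, 1⟩] = true := by
  decide +kernel

lemma chkTau3 : checkAlt 1 [[eTauOK 894 150]]
    (.cut 0 (.leaf 0) (.cut 0 (.leaf 0) (.cut 0 (.cut 0 (.leaf 0) (.leaf 0)) (.leaf 0))))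
    [⟨0, 1, 1⟩] = true := by
  decide +kernel

lemma vtx_step {a b : ℤ} {T : ACut} (ha : 0 ≤ a) (hb : 0 ≤ b)
    (hchk : checkAlt 1 [[eTauOK a b]] T [⟨0, 1, 1⟩] = true) {x t σ V : ℝ} (hx : 0 ≤ x)
    (ht : 0 ≤ t) (ht1 : t ≤ 1) (hσ : 0 ≤ σ) (hσ1 : σ ≤ 4 / 5)
    (h9 : σ ^ 9 = x ^ 9 * (1 + t ^ 9))
    (hV : ∀ s, s = x * ((a : ℝ) + b * t) / 1000 → phi s ≤ V) : phi σ ≤ V := by
  obtain ⟨es, hes, hall⟩ := checkAlt_sound 1 _ _ _ (pt [t]) hchk
    (show BoxMem [⟨0, 1, 1⟩] (pt [t]) from ⟨by simp [Iv.Mem, pt, ht, ht1], trivial⟩)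
  simp only [List.mem_cons, List.not_mem_nil, or_false] at hes
  subst hes
  have h := hall (eTauOK a b) (by simp)
  simp only [eTauOK, eval_sub, eval_mul, eval_add, eval_pow, eval_c, eval_v, pt_zero] at h
  push_cast at h
  obtain ⟨s, hs⟩ : ∃ s, s = x * ((a : ℝ) + b * t) / 1000 := ⟨_, rfl⟩
  have hab : 0 ≤ (a : ℝ) + b * t :=
    add_nonneg (Int.cast_nonneg ha) (mul_nonneg (Int.cast_nonneg hb) ht)
  have hs0 : 0 ≤ s := hs ▸ by positivity
  have hle : s ≤ σ := by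
    refine le_of_pow_le_pow_left₀ (n := 9) (by norm_num) hσ ?_
    rw [h9, hs, div_pow, mul_pow, div_le_iff₀ (by norm_num)]
    have := mul_le_mul_of_nonneg_left (sub_nonneg.1 h) (pow_nonneg hx 9)
    linarith
  exact (phi_antitone ⟨hs0, hle.trans hσ1⟩ ⟨hσ, hσ1⟩ hle).trans (hV s hs)

/-- The vertex side in the corner. -/
theorem corner_vertex {u y : Fin 3 → ℝ} {π : Equiv.Perm (Fin 3)} (h : Roots u y π)
    (hi : 17 / 10 < u (π 0)) {σ : ℝ} (hσ : 0 ≤ σ) (h9 : σ ^ 9 = ysum y - 1) :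
    σ ≤ 4 / 5 ∧ phi σ ≤ ∑ j, coef j * NegEnd.vert (atom j) u := by
  have hY := h.pos
  have hY1 : ysum y < 10 / 9 := by
    have h0 := h.comp 0
    rw [h.top, one_pow, mul_one] at h0
    have : 27 / 10 < 3 / ysum y := by linarith
    rw [lt_div_iff₀ hY] at this
    linarith
  have hσ1 : σ ≤ 4 / 5 := le_of_pow_le_pow_left₀ (n := 9) (by norm_num) (by norm_num)
    (by rw [h9]; norm_num; linarith)
  refine ⟨hσ1, ?_⟩
  have hx : 0 ≤ y 1 := h.nonneg.trans h.mid
  obtain ⟨t, ht, ht1, hy2⟩ : ∃ t, 0 ≤ t ∧ t ≤ 1 ∧ y 2 = y 1 * t := by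
    rcases hx.eq_or_lt with e | e
    · exact ⟨0, le_rfl, zero_le_one, by linarith [h.mid, h.nonneg]⟩
    · exact ⟨y 2 / y 1, div_nonneg h.nonneg hx, (div_le_one e).2 h.mid,
        by rw [mul_div_cancel₀ _ e.ne']⟩
  have hYe : ysum y = 1 + y 1 ^ 9 * (1 + t ^ 9) := by
    simp only [ysum, h.top, hy2]; ring
  have hx1 : y 1 ≤ 784 / 1000 := le_of_pow_le_pow_left₀ (n := 9) (by norm_num) (by norm_num) (by
    have : 0 ≤ y 1 ^ 9 * t ^ 9 := by positivity
    norm_num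
    linarith)
  obtain ⟨es, hes, hall⟩ := checkAlt_sound 2 _ _ _ (pt [y 1, t]) chkVtx
    (show BoxMem [⟨0, 784, 1000⟩, ⟨0, 1, 1⟩] (pt [y 1, t]) from
      ⟨by simp [Iv.Mem, pt, hx]; linarith, by simp [Iv.Mem, pt, ht, ht1], trivial⟩)
  have hU : (fun i => (cornU i).eval (pt [y 1, t])) = y := by
    funext i
    fin_cases i <;> simp [cornU, h.top, hy2]
  have hne : ysum (fun i => (cornU i).eval (pt [y 1, t])) ≠ 0 := by rw [hU]; exact hY.ne'
  have key : ∀ a b : ℤ, 0 ≤ a → 0 ≤ b → (eVtx a b) ∈ es →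
      ∀ s, s = y 1 * ((a : ℝ) + b * t) / 1000 →
        phi s ≤ ∑ j, coef j * NegEnd.vert (atom j) u := by
    intro a b ha hb hmem s hs
    have hk := hall _ hmem
    simp only [eVtx, eval_add, eval_sub, eval_mul, eval_pow, eval_c, eval_v, horHom_corner,
      eSum_eval, eT_eval cornU _ _ hne, hU, pt_zero, pt_one] at hk
    have hs' : y 1 * ((a : ℝ) + b * t) = 1000 * s := by rw [hs]; ring
    push_cast at hk
    rw [hs', mul_div_cancel_left₀ _ (by norm_num : (1000 : ℝ) ≠ 0)] at hk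
    have hs0 : 0 ≤ s := hs ▸ div_nonneg (mul_nonneg hx
      (add_nonneg (Int.cast_nonneg ha) (mul_nonneg (Int.cast_nonneg hb) ht))) (by norm_num)
    simp only [Fin.sum_univ_six, h.vert_atom]
    obtain ⟨c0, c1, c2, c3, c4, c5⟩ := coef_vals
    rw [c0, c1, c2, c3, c4, c5, phi, div_le_iff₀ (by positivity)]
    refine le_of_mul_le_mul_left ?_
      (mul_pos (show (0 : ℝ) < 1000000000000000000000000000 by norm_num) hY)
    linarith
  have h9' : σ ^ 9 = y 1 ^ 9 * (1 + t ^ 9) := by rw [h9, hYe]; ring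
  simp only [altsVtx, List.mem_cons, List.not_mem_nil, or_false] at hes
  rcases hes with rfl | rfl | rfl | rfl | rfl
  · exact vtx_step (by norm_num) (by norm_num) chkTau0 hx ht ht1 hσ hσ1 h9'
      (key 1000 0 (by norm_num) (by norm_num) (by simp))
  · exact vtx_step (by norm_num) (by norm_num) chkTau1 hx ht ht1 hσ hσ1 h9'
      (key 540 540 (by norm_num) (by norm_num) (by simp))
  · exact vtx_step (by norm_num) (by norm_num) chkTau2 hx ht ht1 hσ hσ1 h9'
      (key 747 321 (by norm_num) (by norm_num) (by simp))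
  · exact vtx_step (by norm_num) (by norm_num) chkTau3 hx ht ht1 hσ hσ1 h9'
      (key 894 150 (by norm_num) (by norm_num) (by simp))
  · have := hall _ (List.mem_cons_self ..)
    simp only [eval_sub, eval_mul, eval_add, eval_pow, eval_c, eval_v, pt_zero, pt_one] at this
    push_cast at this
    linarith

/-- The edge side in the corner. -/
theorem corner_edge {ω ρ D m : ℝ} (hω : 0 ≤ ω) (hω1 : ω ≤ 4 / 5) (hρ : 49 / 50 ≤ ρ)
    (hρ1 : ρ ≤ 1) (hD : 4 ≤ D) (hD1 : D ≤ 81 / 20) (hm : 0 ≤ m) (hm1 : m ≤ 3 / 40)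
    {e : Fin 6 → ℝ} (he : ∀ j, e j = tau (atomI j) ![1, ρ, ω] * D) :
    1 / 100000 ≤ phi (1014 / 1000 * ω) - ∑ j, coef j * e j + rem e m := by
  obtain ⟨es, hes, hall⟩ := checkAlt_sound 4 _ _ _ (pt [ω, ρ, D, m]) chkEdge
    (show BoxMem [⟨0, 4, 5⟩, ⟨49, 50, 50⟩, ⟨80, 81, 20⟩, ⟨0, 3, 40⟩]
        (pt [ω, ρ, D, m]) from
      ⟨by simp [Iv.Mem, pt, hω]; linarith, by simp [Iv.Mem, pt]; constructor <;> linarith,
        by simp [Iv.Mem, pt]; constructor <;> linarith,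
        by simp [Iv.Mem, pt, hm]; linarith, trivial⟩)
  simp only [List.mem_cons, List.not_mem_nil, or_false] at hes
  subst hes
  have hk := hall eEdge (by simp)
  have hV : (fun i => (cornV i).eval (pt [ω, ρ, D, m])) = ![1, ρ, ω] := by
    funext i
    fin_cases i <;> simp [cornV]
  obtain ⟨Y, hYe⟩ : ∃ Y, Y = ysum ![1, ρ, ω] := ⟨_, rfl⟩
  have hY : 0 < Y := by
    have : (0 : ℝ) ≤ ρ := by linarith
    simp [hYe, ysum]
    positivity
  have hne : ysum (fun i => (cornV i).eval (pt [ω, ρ, D, m])) ≠ 0 := by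
    rw [hV, ← hYe]; exact hY.ne'
  simp only [eEdge, eval_add, eval_sub, eval_mul, eval_pow, eval_c, eval_v, horHom_corner,
    horEx_eval, eSum_eval, eT_eval cornV _ _ hne, hV, ← hYe, pt_zero, pt_succ]
    at hk
  simp only [hor, cs0, cs1, cs2, cs3, cs4, cs5] at hk
  push_cast at hk
  obtain ⟨P, hP⟩ : ∃ P, P = phi (1014 / 1000 * ω) := ⟨_, rfl⟩
  rw [← hP]
  have hN : hor cornerN (1014 * ω / 1000) = P * (100000000 * (1 + (1014 / 1000 * ω) ^ 9)) := by
    rw [hP, phi, div_mul_cancel₀ _ (by positivity),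
      show (1014 : ℝ) * ω / 1000 = 1014 / 1000 * ω by ring]
  rw [hN] at hk
  simp only [Fin.sum_univ_six]
  obtain ⟨c0, c1, c2, c3, c4, c5⟩ := coef_vals
  rw [c0, c1, c2, c3, c4, c5]
  refine sub_nonneg.1 (nonneg_of_mul_nonneg_right ?_ (show (0 : ℝ) <
    7200000000000000000000000000 * 1000000000000000000000000000 *
      (1 + (1014 / 1000 * ω) ^ 9) * Y ^ 2 by positivity))
  simp only [rem, sLo, sHi, sD, he]
  linarith

/-- The certificate in the corner. -/
theorem corner {u : Fin 3 → ℝ} (hu : Dev u) {l : ℝ} (hl : 497 / 1000 ≤ l) (hl1 : l ≤ 1 / 2)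
    {i0 : Fin 3} (hi : 17 / 10 < u i0) {m : ℝ} (hm : 0 ≤ m) (hm1 : m ≤ 3 / 40)
    (hvd : Dev fun i => -l * u i) {e : Fin 6 → ℝ}
    (he : ∀ j, e j = NegEnd.vert (atom j) (fun i => -l * u i) / l ^ 2) :
    1 / 100000 ≤ ∑ j, coef j * (NegEnd.vert (atom j) u - e j) + rem e m := by
  obtain ⟨y, π, h⟩ := exists_roots hu
  obtain ⟨y', π', h'⟩ := exists_roots hvd
  have hi0 : 17 / 10 < u (π 0) := hi.trans_le (h.le_top i0)
  have hsum := hu.1
  rw [Fin.sum_univ_three] at hsum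
  have hothers : ∀ i, i ≠ π 0 → u i ≤ -(7 / 10) := by
    intro i hne
    have b0 := hu.2 0; have b1 := hu.2 1; have b2 := hu.2 2
    generalize π 0 = k at hne hi0
    fin_cases i <;> fin_cases k <;> simp_all <;> linarith
  have hbot : π' 2 = π 0 := by
    by_contra hne
    have h1 := mul_le_mul_of_nonneg_left (hothers _ hne) (show (0 : ℝ) ≤ l by linarith)
    have h2 : -l * u (π' 2) ≤ -l * u (π 0) := h'.bot_le (π 0)
    have h3 := mul_lt_mul_of_pos_left hi0 (show (0 : ℝ) < l by linarith)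
    linarith
  have hY := h.pos
  have hY' := h'.pos
  have hu0 : 1 + u (π 0) = 3 / ysum y := by
    have := h.comp 0
    rwa [h.top, one_pow, mul_one] at this
  have hv0 : 1 + -l * u (π' 0) = 3 / ysum y' := by
    have := h'.comp 0
    rwa [h'.top, one_pow, mul_one] at this
  have hv1 : 1 + -l * u (π' 1) = 3 * y' 1 ^ 9 / ysum y' := h'.comp 1
  have hv2 : 1 + -l * u (π 0) = 3 * y' 2 ^ 9 / ysum y' := by
    have := h'.comp 2
    rwa [hbot] at this
  have hn1 : π' 1 ≠ π 0 := hbot ▸ π'.injective.ne (by decide)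
  have hn0 : π' 0 ≠ π 0 := hbot ▸ π'.injective.ne (by decide)
  have hmid : 13479 / 10000 ≤ 1 + -l * u (π' 1) := by
    have := mul_le_mul_of_nonneg_left (hothers _ hn1) (show (0 : ℝ) ≤ l by linarith)
    linarith
  have htop : 13479 / 10000 ≤ 1 + -l * u (π' 0) := by
    have := mul_le_mul_of_nonneg_left (hothers _ hn0) (show (0 : ℝ) ≤ l by linarith)
    linarith
  have htop2 : 1 + -l * u (π' 0) ≤ 3 / 2 := by
    have := mul_le_mul_of_nonneg_left (hu.2 (π' 0)) (show (0 : ℝ) ≤ l by linarith)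
    linarith
  rw [hv1, le_div_iff₀ hY'] at hmid
  rw [hv0, le_div_iff₀ hY'] at htop
  rw [hv0, div_le_iff₀ hY'] at htop2
  have hlow : 1 + -l * u (π 0) ≤ 1551 / 10000 := by
    have := mul_le_mul hl hi0.le (by norm_num) (by linarith)
    linarith
  rw [hv2, div_le_iff₀ hY'] at hlow
  have hρ9 : 8986 / 10000 ≤ y' 1 ^ 9 := by linarith
  have hω9 : y' 2 ^ 9 ≤ 11508 / 100000 := by linarith
  have hρ : 988 / 1000 ≤ y' 1 := le_of_pow_le_pow_left₀ (n := 9) (by norm_num)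
    (h'.nonneg.trans h'.mid) (by norm_num; linarith)
  have hω : y' 2 ≤ 7865 / 10000 := le_of_pow_le_pow_left₀ (n := 9) (by norm_num) (by norm_num)
    (by norm_num; linarith)
  obtain ⟨σ, hσ, hσ9⟩ : ∃ σ : ℝ, 0 ≤ σ ∧ σ ^ 9 = ysum y - 1 :=
    ⟨(ysum y - 1) ^ (1 / 9 : ℝ), Real.rpow_nonneg (by linarith [h.one_le]) _, by
      rw [← Real.rpow_natCast, ← Real.rpow_mul (by linarith [h.one_le])]; norm_num⟩
  obtain ⟨hσ1, hV⟩ := corner_vertex h hi0 hσ hσ9
  have hkey : σ ^ 9 * (l * ysum y' - y' 2 ^ 9) ≤ y' 2 ^ 9 := by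
    have h2 : l * (2 - u (π 0)) ≤ 1 + -l * u (π 0) := by linarith
    rw [hv2, le_div_iff₀ hY'] at h2
    have h3 : (2 - u (π 0)) * ysum y = 3 * σ ^ 9 := by
      rw [show (2 : ℝ) - u (π 0) = 3 - (1 + u (π 0)) by ring, hu0, sub_mul,
        div_mul_cancel₀ _ hY.ne', hσ9]
      ring
    have h4 := mul_le_mul_of_nonneg_left h2 hY.le
    have e : ysum y * (l * (2 - u (π 0)) * ysum y') = l * (3 * σ ^ 9) * ysum y' := by
      rw [← h3]; ring
    have e2 : ysum y = 1 + σ ^ 9 := by linarith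
    rw [e, e2] at h4
    linarith
  have hsum' : ysum y' = 1 + y' 1 ^ 9 + y' 2 ^ 9 := by simp [ysum, h'.top]
  have hσω : σ ≤ 1014 / 1000 * y' 2 := by
    refine le_of_pow_le_pow_left₀ (n := 9) (by norm_num) (mul_nonneg (by norm_num) h'.nonneg) ?_
    have hnn : 0 ≤ σ ^ 9 := pow_nonneg hσ 9
    have hl9 := mul_le_mul hl (show (18986 : ℝ) / 10000 ≤ 1 + y' 1 ^ 9 by linarith) (by norm_num)
      (by linarith)
    have hl2 := mul_le_mul (show 1 - l ≤ 503 / 1000 by linarith) hω9 (pow_nonneg h'.nonneg 9)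
      (by norm_num)
    have hk : 1 ≤ (1014 / 1000 : ℝ) ^ 9 * (l * ysum y' - y' 2 ^ 9) := by
      rw [hsum']
      refine le_trans (show (1 : ℝ) ≤ (1014 / 1000) ^ 9 * (4971 / 10000 * 1898 / 1000 -
        58 / 1000) by norm_num) (mul_le_mul_of_nonneg_left ?_ (by norm_num))
      linarith
    calc σ ^ 9 ≤ σ ^ 9 * ((1014 / 1000 : ℝ) ^ 9 * (l * ysum y' - y' 2 ^ 9)) :=
          le_mul_of_one_le_right hnn hk
      _ ≤ (1014 / 1000 : ℝ) ^ 9 * y' 2 ^ 9 := by
          rw [mul_left_comm]; exact mul_le_mul_of_nonneg_left hkey (by norm_num)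
      _ = (1014 / 1000 * y' 2) ^ 9 := (mul_pow _ _ _).symm
  have hκ : 1014 / 1000 * y' 2 ≤ 4 / 5 := by linarith
  have hmono := phi_antitone ⟨hσ, hσ1⟩ ⟨hσ.trans hσω, hκ⟩ hσω
  have hy' : y' = ![1, y' 1, y' 2] := by
    funext i
    fin_cases i <;> simp [h'.top]
  have hl2 : 0 < l ^ 2 := by nlinarith
  have hD : 4 ≤ 1 / l ^ 2 ∧ 1 / l ^ 2 ≤ 81 / 20 := by
    constructor
    · rw [le_div_iff₀ hl2]; nlinarith
    · rw [div_le_iff₀ hl2]; nlinarith
  have hE := corner_edge (D := 1 / l ^ 2) h'.nonneg (by linarith) (by linarith) h'.le_one hD.1 hD.2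
    hm hm1 (e := e) fun j => by rw [he j, h'.vert_atom, ← hy', mul_one_div]
  simp only [mul_sub, Finset.sum_sub_distrib]
  linarith

end Vale.Agent.P154.NegNine
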