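import Vale.Agent.P154.NegNine.Data

/-!
P154 NegNine: the certificates in the corner (generated).
-/

namespace Vale.Agent.P154.NegNine

open PolyCheck

/-- Coefficients of the antitone bound at a vertex, times `10 ^ 8`. -/
def cornerN : List ℤ :=
  [3458000, -11461311, 18817877, 0, -28920334, 13799227, 15252667, -14198642, 3167383, 140850]

/-- The roots at a vertex in the corner. -/
def cornU : Fin 3 → Ex := ![Ex.c 1, Ex.v 0, Ex.v 0 * Ex.v 1]

/-- The roots after one edge in the corner. -/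
def cornV : Fin 3 → Ex := ![Ex.c 1, Ex.v 1, Ex.v 0]

/-- The vertex bound at one lower bound of the norm. -/
def eVtx (a b : ℤ) : Ex :=
  (Ex.c (-4035350) * eT cornU (atomI 0) +
      Ex.c (6189450) * eT cornU (atomI 1) +
      Ex.c (-10975800) * eT cornU (atomI 2) +
      Ex.c (8103500) * eT cornU (atomI 3) +
      Ex.c (-9122050) * eT cornU (atomI 4) +
      Ex.c (11573750) * eT cornU (atomI 5)) *
      (Ex.c (1000000000000000000000000000) + (Ex.v 0 * (Ex.c a + Ex.c b * Ex.v 1)) ^ 9) -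
    eSum cornU * horHom 1000 cornerN (Ex.v 0 * (Ex.c a + Ex.c b * Ex.v 1))

/-- The lower bounds of the norm used. -/
def cornTau : List (ℤ × ℤ) := [(1000, 0), (540, 540), (747, 321), (894, 150)]

/-- The alternatives at a vertex in the corner. -/
def altsVtx : List (List Ex) :=
  [[eVtx 1000 0], [eVtx 540 540], [eVtx 747 321], [eVtx 894 150],
    [Ex.c 1000000 * (Ex.c 9 * (Ex.v 0 ^ 9 * (Ex.c 1 + Ex.v 1 ^ 9)) - Ex.c 1) - Ex.c 1]]

theorem chkVtx_0 : checkAlt 2 altsVtx (.leaf 0)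
    [⟨0, 784, 1000⟩, ⟨0, 1, 2⟩] = true := by
  decide +kernel

theorem chkVtx_1 : checkAlt 2 altsVtx (.leaf 1)
    [⟨0, 784, 2000⟩, ⟨1, 2, 2⟩] = true := by
  decide +kernel

theorem chkVtx_2 : checkAlt 2 altsVtx (.leaf 0)
    [⟨784, 1568, 2000⟩, ⟨2, 3, 4⟩] = true := by
  decide +kernel

theorem chkVtx_3 : checkAlt 2 altsVtx (.leaf 1)
    [⟨1568, 2352, 4000⟩, ⟨3, 4, 4⟩] = true := by
  decide +kernel

theorem chkVtx_4 : checkAlt 2 altsVtx (.leaf 3)
    [⟨2352, 3136, 4000⟩, ⟨6, 7, 8⟩] = true := by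
  decide +kernel

theorem chkVtx_5 : checkAlt 2 altsVtx (.cut 0 (.cut 1 (.leaf 2) (.leaf 1)) (.cut 1 (.leaf 2) (.leaf 1)))
    [⟨2352, 3136, 4000⟩, ⟨7, 8, 8⟩] = true := by
  decide +kernel

theorem chkVtx_6 : checkAlt 2 altsVtx (.cut 1 (.leaf 3) (.cut 0 (.cut 1 (.leaf 2) (.leaf 1)) (.cut 1 (.leaf 2) (.leaf 1))))
    [⟨2352, 3136, 4000⟩, ⟨3, 4, 4⟩] = true := checkAlt_cut chkVtx_4 chkVtx_5

theorem chkVtx_7 : checkAlt 2 altsVtx (.cut 0 (.leaf 1) (.cut 1 (.leaf 3) (.cut 0 (.cut 1 (.leaf 2) (.leaf 1)) (.cut 1 (.leaf 2) (.leaf 1)))))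
    [⟨784, 1568, 2000⟩, ⟨3, 4, 4⟩] = true := checkAlt_cut chkVtx_3 chkVtx_6

theorem chkVtx_8 : checkAlt 2 altsVtx (.cut 1 (.leaf 0) (.cut 0 (.leaf 1) (.cut 1 (.leaf 3) (.cut 0 (.cut 1 (.leaf 2) (.leaf 1)) (.cut 1 (.leaf 2) (.leaf 1))))))
    [⟨784, 1568, 2000⟩, ⟨1, 2, 2⟩] = true := checkAlt_cut chkVtx_2 chkVtx_7

theorem chkVtx_9 : checkAlt 2 altsVtx (.cut 0 (.leaf 1) (.cut 1 (.leaf 0) (.cut 0 (.leaf 1) (.cut 1 (.leaf 3) (.cut 0 (.cut 1 (.leaf 2) (.leaf 1)) (.cut 1 (.leaf 2) (.leaf 1)))))))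
    [⟨0, 784, 1000⟩, ⟨1, 2, 2⟩] = true := checkAlt_cut chkVtx_1 chkVtx_8

theorem chkVtx : checkAlt 2 altsVtx (.cut 1 (.leaf 0) (.cut 0 (.leaf 1) (.cut 1 (.leaf 0) (.cut 0 (.leaf 1) (.cut 1 (.leaf 3) (.cut 0 (.cut 1 (.leaf 2) (.leaf 1)) (.cut 1 (.leaf 2) (.leaf 1))))))))
    [⟨0, 784, 1000⟩, ⟨0, 1, 1⟩] = true := checkAlt_cut chkVtx_0 chkVtx_9

/-- Coefficients of the series part in the corner. -/
def cs0 : List ℤ :=
  [3525354435600000000000000, 8734267753218000000000000, -5091749206962984900000000, 1602998561800698822180000, -14145859371310830938768861]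

/-- Coefficients of the derivative part of atom 1 in the corner. -/
def cs1 : List ℤ :=
  [130126996800000000000000, -18998541532800000000000, 1849191375859200000000, -134990970437721600000, 7883472673562941440]

/-- Coefficients of the derivative part of atom 2 in the corner. -/
def cs2 : List ℤ :=
  [-386435966400000000000000, 94483593784800000000000, -15400825786922400000000, 1882750952451263400000, -184133043149733560520]

/-- Coefficients of the derivative part of atom 3 in the corner. -/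
def cs3 : List ℤ :=
  [420668892000000000000000, -151651135566000000000000, 36446822914362000000000, -6569539830313750500000, 947327643531242822100]

/-- Coefficients of the derivative part of atom 4 in the corner. -/
def cs4 : List ℤ :=
  [-579286663200000000000000, 255465418471200000000000, -75106833030532800000000, 16561056683232482400000, -2921370398922209895360]

/-- Coefficients of the derivative part of atom 5 in the corner. -/
def cs5 : List ℤ :=
  [737479350000000000000000, -326334612375000000000000, 96268710650625000000000, -21299452231450781250000, 3770003044966788281250]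

/-- The edge side in the corner, against the vertex bound. -/
def eEdge : Ex :=
  Ex.c (72000000000000000000) * horHom 1000 cornerN (Ex.c 1014 * Ex.v 0) * eSum cornV ^ 2 +
    (Ex.c (1000000000000000000000000000) + Ex.c (1133291404818113212906550784) * Ex.v 0 ^ 9) *
    (Ex.c 0 -
      (Ex.c (-290545200000000000000000000) * eT cornV (atomI 0) +
        Ex.c (445640400000000000000000000) * eT cornV (atomI 1) +
        Ex.c (-790257600000000000000000000) * eT cornV (atomI 2) +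
        Ex.c (583452000000000000000000000) * eT cornV (atomI 3) +
        Ex.c (-656787600000000000000000000) * eT cornV (atomI 4) +
        Ex.c (833310000000000000000000000) * eT cornV (atomI 5)) * (Ex.v 2 * eSum cornV) +
      Ex.v 3 ^ 2 * horEx cs0 (Ex.v 3) * eSum cornV ^ 2 +
      Ex.v 3 * horEx cs1 (Ex.v 3) * ((Ex.c 1000 * eT cornV (atomI 1) - Ex.c 292 * eT cornV (atomI 0)) * (Ex.v 2 * eSum cornV)) +
      Ex.v 3 * horEx cs2 (Ex.v 3) * ((Ex.c 1000 * eT cornV (atomI 2) - Ex.c 489 * eT cornV (atomI 0)) * (Ex.v 2 * eSum cornV)) +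
      Ex.v 3 * horEx cs3 (Ex.v 3) * ((Ex.c 1000 * eT cornV (atomI 3) - Ex.c 721 * eT cornV (atomI 0)) * (Ex.v 2 * eSum cornV)) +
      Ex.v 3 * horEx cs4 (Ex.v 3) * ((Ex.c 1000 * eT cornV (atomI 4) - Ex.c 882 * eT cornV (atomI 0)) * (Ex.v 2 * eSum cornV)) +
      Ex.v 3 * horEx cs5 (Ex.v 3) * ((Ex.c 1000 * eT cornV (atomI 5) - Ex.c 885 * eT cornV (atomI 0)) * (Ex.v 2 * eSum cornV)) +
      Ex.c (-197564400000000000000) * (Ex.c 1000 * eT cornV (atomI 2) - Ex.c 489 * eT cornV (atomI 0)) ^ 2 * Ex.v 2 ^ 2 +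
      Ex.c (-164196900000000000000) * (Ex.c 1000 * eT cornV (atomI 4) - Ex.c 882 * eT cornV (atomI 0)) ^ 2 * Ex.v 2 ^ 2 -
      Ex.c (72000000000000000000000) * eSum cornV ^ 2)

theorem chkEdge : checkAlt 4 [[eEdge]] (.leaf 0)
    [⟨0, 4, 5⟩, ⟨49, 50, 50⟩, ⟨80, 81, 20⟩, ⟨0, 3, 40⟩] = true := by
  decide +kernel

/-- Nonnegative when the bound at a vertex is antitone. -/
def eAnti : Ex :=
  Ex.c 9 * Ex.v 0 ^ 8 * horEx cornerN (Ex.v 0) -
    horDEx cornerN (Ex.v 0) * (Ex.c 1 + Ex.v 0 ^ 9)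

theorem chkAnti : checkAlt 1 [[eAnti]] (.leaf 0) [⟨0, 4, 5⟩] = true := by
  decide +kernel

end Vale.Agent.P154.NegNine
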