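import Vale.Agent.P154.NegNine.EnvBase

/-!
P154 NegNine: atoms, envelopes and coefficients (generated).
-/

namespace Vale.Agent.P154.NegNine

open PolyCheck

/-- Nine times the atoms. -/
def atomI : Fin 6 → Fin 3 → ℕ :=
  ![![3, 3, 3], ![0, 1, 8], ![0, 2, 7], ![0, 4, 5], ![1, 4, 4], ![2, 2, 5]]

/-- The coefficients, times `10 ^ 6`. -/
def coefI : Fin 6 → ℤ :=
  ![-80707, 123789, -219516, 162070, -182441, 231475]

/-- The tangent ratios, times `1000`. -/
def ratI : Fin 6 → ℤ :=
  ![1000, 292, 489, 721, 882, 885]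

/-- Higher terms of the envelope at a vertex, times `81000000`. -/
def L_Vh : List (ℤ × ℕ × ℕ) :=
  [(122332, 2, 0), (132077, 1, 1), (36693, 3, 0), (-183288, 0, 2), (-229253, 2, 1), (316337, 4, 0), (-29232, 1, 2)]

/-- Higher terms of the envelope after one edge, times `81000000`. -/
def L_Gh : List (ℤ × ℕ × ℕ) :=
  [(142512, 2, 0), (-1072, 1, 1), (95240, 3, 0), (-49054, 0, 2), (64445, 2, 1)]

/-- Envelope of atom 1 minus its multiple of atom 0, times `81000000`. -/
def L_D1 : List (ℤ × ℕ × ℕ) :=
  [(348000, 1, 0), (3768000, 0, 1), (-1769034, 2, 0), (3991666, 1, 1), (-1648768, 3, 0), (-2126163, 0, 2), (10602292, 2, 1)]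

/-- Envelope of atom 2 minus its multiple of atom 0, times `81000000`. -/
def L_D2 : List (ℤ × ℕ × ℕ) :=
  [(2391000, 1, 0), (5406000, 0, 1), (-2706516, 2, 0), (8617088, 1, 1), (-6871986, 3, 0), (-5065081, 0, 2), (16321654, 2, 1)]

/-- Envelope of atom 3 minus its multiple of atom 0, times `81000000`. -/
def L_D3 : List (ℤ × ℕ × ℕ) :=
  [(1599000, 1, 0), (8934000, 0, 1), (-10642598, 2, 0), (9432960, 1, 1), (-27531868, 3, 0), (-7253266, 0, 2), (269063370, 2, 1)]

/-- Envelope of atom 4 minus its multiple of atom 0, times `81000000`. -/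
def L_D4 : List (ℤ × ℕ × ℕ) :=
  [(558000, 1, 0), (3628000, 0, 1), (-3095355, 2, 0), (7171315, 1, 1), (338519736, 3, 0), (-350223669, 0, 2), (14803528, 2, 1)]

/-- Envelope of atom 5 minus its multiple of atom 0, times `81000000`. -/
def L_D5 : List (ℤ × ℕ × ℕ) :=
  [(315000, 1, 0), (1790000, 0, 1), (-1009288, 2, 0), (1795486, 1, 1), (-583204, 3, 0), (-744612, 0, 2), (2002132, 2, 1)]

/-- Envelope of the squares, times `81000000 * 108000000`. -/
def L_Q : List (ℤ × ℕ × ℕ) :=
  [(1749003212160, 2, 0), (8551322661120, 1, 1), (-4898988000000, 3, 0), (11822436000000, 0, 2), (10513152000000, 2, 1), (37124028000000, 4, 0), (151108416000000, 1, 2)]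

/-- Envelope V as an expression. -/
def eEnvV : Ex :=
  (Ex.c (-4236149016) * (eT chartEx (atomI 0) * eSum chartEx ^ 7) +
      Ex.c (6497437032) * (eT chartEx (atomI 1) * eSum chartEx ^ 7) +
      Ex.c (-11521955808) * (eT chartEx (atomI 2) * eSum chartEx ^ 7) +
      Ex.c (8506730160) * (eT chartEx (atomI 3) * eSum chartEx ^ 7) +
      Ex.c (-9575963208) * (eT chartEx (atomI 4) * eSum chartEx ^ 7) +
      Ex.c (12149659800) * (eT chartEx (atomI 5) * eSum chartEx ^ 7)) -
      polEx chartEx 8 4 ((468645, 1, 0) :: L_Vh)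

/-- Envelope G as an expression. -/
def eEnvG : Ex :=
  polEx chartEx 7 3 ((468645, 1, 0) :: L_Gh) -
      (Ex.c (-706024836) * (eT chartEx (atomI 0) * eSum chartEx ^ 6) +
      Ex.c (1082906172) * (eT chartEx (atomI 1) * eSum chartEx ^ 6) +
      Ex.c (-1920325968) * (eT chartEx (atomI 2) * eSum chartEx ^ 6) +
      Ex.c (1417788360) * (eT chartEx (atomI 3) * eSum chartEx ^ 6) +
      Ex.c (-1595993868) * (eT chartEx (atomI 4) * eSum chartEx ^ 6) +
      Ex.c (2024943300) * (eT chartEx (atomI 5) * eSum chartEx ^ 6))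

/-- Envelope D1 as an expression. -/
def eEnvD1 : Ex :=
  Ex.c (8748000) * ((Ex.c 1000 * eT chartEx (atomI 1) - Ex.c 292 * eT chartEx (atomI 0)) *
      eSum chartEx ^ 6) -
      polEx chartEx 7 3 L_D1

/-- Envelope D2 as an expression. -/
def eEnvD2 : Ex :=
  polEx chartEx 7 3 L_D2 -
      Ex.c (8748000) * ((Ex.c 1000 * eT chartEx (atomI 2) - Ex.c 489 * eT chartEx (atomI 0)) *
      eSum chartEx ^ 6)

/-- Envelope D3 as an expression. -/
def eEnvD3 : Ex :=
  Ex.c (8748000) * ((Ex.c 1000 * eT chartEx (atomI 3) - Ex.c 721 * eT chartEx (atomI 0)) *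
      eSum chartEx ^ 6) -
      polEx chartEx 7 3 L_D3

/-- Envelope D4 as an expression. -/
def eEnvD4 : Ex :=
  polEx chartEx 7 3 L_D4 -
      Ex.c (8748000) * ((Ex.c 1000 * eT chartEx (atomI 4) - Ex.c 882 * eT chartEx (atomI 0)) *
      eSum chartEx ^ 6)

/-- Envelope D5 as an expression. -/
def eEnvD5 : Ex :=
  Ex.c (8748000) * ((Ex.c 1000 * eT chartEx (atomI 5) - Ex.c 885 * eT chartEx (atomI 0)) *
      eSum chartEx ^ 6) -
      polEx chartEx 7 3 L_D5

/-- Envelope Q as an expression. -/
def eEnvQ : Ex :=
  polEx chartEx 8 4 L_Q -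
      (Ex.c (622185613632) * ((Ex.c 1000 * eT chartEx (atomI 2) - Ex.c 489 * eT chartEx (atomI 0)) ^ 2 *
        eSum chartEx ^ 6) +
      Ex.c (517102013232) * ((Ex.c 1000 * eT chartEx (atomI 4) - Ex.c 882 * eT chartEx (atomI 0)) ^ 2 *
        eSum chartEx ^ 6))

/-- Positive above the range after one edge. -/
def eTop : Ex := Ex.c 2 - eSum chartEx

/-- Positive below the range after one edge. -/
def eBot : Ex := eSum chartEx - Ex.c 20 * chartEx 2 ^ 9

/-- Positive outside the range at a vertex. -/
def eCor : Ex := Ex.c 10 - Ex.c 9 * eSum chartEx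

/-- Coefficients of the series part. -/
def h0 : List ℤ :=
  [42833056392540000000000000000, 106121353201598700000000000000, -61864752864600266535000000000, 19476432525878490689487000000, -171872191361426595906041661150]

/-- Coefficients of the derivative part of atom 1. -/
def h1 : List ℤ :=
  [39038099040000000000000, -5699562459840000000000, 554757412757760000000, -40497291131316480000, 2365041802068882432]

/-- Coefficients of the derivative part of atom 2. -/
def h2 : List ℤ :=
  [-115930789920000000000000, 28345078135440000000000, -4620247736076720000000, 564825285735379020000, -55239912944920068156]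

/-- Coefficients of the derivative part of atom 3. -/
def h3 : List ℤ :=
  [126200667600000000000000, -45495340669800000000000, 10934046874308600000000, -1970861949094125150000, 284198293059372846630]

/-- Coefficients of the derivative part of atom 4. -/
def h4 : List ℤ :=
  [-173785998960000000000000, 76639625541360000000000, -22532049909159840000000, 4968317004969744720000, -876411119676662968608]

/-- Coefficients of the derivative part of atom 5. -/
def h5 : List ℤ :=
  [221243805000000000000000, -97900383712500000000000, 28880613195187500000000, -6389835669435234375000, 1131000913490036484375]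

end Vale.Agent.P154.NegNine
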