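import Vale.Agent.P154.NegNine.Param
import Vale.Agent.P154.NegEnd.Mon

/-!
P154 NegNine: expressions in the roots, envelope polynomials and Horner forms.
-/

namespace Vale.Agent.P154.NegNine

open PolyCheck
export NegEnd (sval mon monEx wGe okList)

/-- The roots in the chart, as expressions. -/
def chartEx : Fin 3 → Ex := ![Ex.c 1, Ex.c 1 - Ex.v 0 * Ex.v 1, Ex.c 1 - Ex.v 0]

/-- `ysum`. -/
def eSum (y : Fin 3 → Ex) : Ex := y 0 ^ 9 + y 1 ^ 9 + y 2 ^ 9

/-- `numS`. -/
def eNS (y : Fin 3 → Ex) : Ex :=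
  (Ex.c 3 * y 0 ^ 9 - eSum y) ^ 2 + (Ex.c 3 * y 1 ^ 9 - eSum y) ^ 2 +
    (Ex.c 3 * y 2 ^ 9 - eSum y) ^ 2

/-- `numC`. -/
def eNC (y : Fin 3 → Ex) : Ex :=
  (Ex.c 3 * y 0 ^ 9 - eSum y) ^ 3 + (Ex.c 3 * y 1 ^ 9 - eSum y) ^ 3 +
    (Ex.c 3 * y 2 ^ 9 - eSum y) ^ 3

/-- `2 ysum tau`. -/
def eT (y : Fin 3 → Ex) (a : Fin 3 → ℕ) : Ex :=
  Ex.c 2 * eSum y -
    (y 0 ^ a 0 * y 1 ^ a 1 * y 2 ^ a 2 + y 1 ^ a 0 * y 2 ^ a 1 * y 0 ^ a 2 +
      y 2 ^ a 0 * y 0 ^ a 1 * y 1 ^ a 2 + y 0 ^ a 0 * y 2 ^ a 1 * y 1 ^ a 2 +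
      y 2 ^ a 0 * y 1 ^ a 1 * y 0 ^ a 2 + y 1 ^ a 0 * y 0 ^ a 1 * y 2 ^ a 2)

/-- A list in weight `W`, times `6 ^ M`. -/
def polEx (y : Fin 3 → Ex) (W M : ℕ) : List (ℤ × ℕ × ℕ) → Ex
  | [] => Ex.c 0
  | (k, i, j) :: l =>
    Ex.c (k * 6 ^ (M - (i + j))) *
      (eNS y ^ i * eNC y ^ j * eSum y ^ (W - (2 * i + 3 * j))) + polEx y W M l

/-- Horner form. -/
def horEx : List ℤ → Ex → Ex
  | [], _ => Ex.c 0
  | k :: l, u => Ex.c k + u * horEx l u

/-- Its value. -/
def hor : List ℤ → ℝ → ℝ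
  | [], _ => 0
  | k :: l, u => (k : ℝ) + u * hor l u

/-- Horner form of the derivative. -/
def horDEx : List ℤ → Ex → Ex
  | [], _ => Ex.c 0
  | _ :: l, u => horEx l u + u * horDEx l u

/-- Its value. -/
def horD : List ℤ → ℝ → ℝ
  | [], _ => 0
  | _ :: l, u => hor l u + u * horD l u

/-- Horner form with a common denominator. -/
def horHom (den : ℤ) : List ℤ → Ex → Ex
  | [], _ => Ex.c 0
  | k :: l, s => Ex.c (k * den ^ l.length) + s * horHom den l s

/-- The alternatives of an envelope: the expression, out of range, or the expression plus a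
multiple of a quantity that is nonpositive in range. -/
def envAlts (n : ℕ) (e : Ex) (outs : List Ex) (ks : List ℤ) : List (List Ex) :=
  [e] :: ((outs.map fun o => [Ex.c 1000000 * o - Ex.c 1]) ++
    outs.flatMap fun o => ks.map fun k => [e + Ex.c k * o * eSum chartEx ^ n])

variable (y : Fin 3 → Ex) (x : ℕ → ℝ)

lemma eSum_eval : (eSum y).eval x = ysum fun i => (y i).eval x := by
  simp only [eSum, eval_add, eval_pow, ysum]

lemma eNS_eval : (eNS y).eval x = numS fun i => (y i).eval x := by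
  simp only [eNS, eval_add, eval_sub, eval_mul, eval_pow, eval_c, eSum_eval, numS]
  norm_num

lemma eNC_eval : (eNC y).eval x = numC fun i => (y i).eval x := by
  simp only [eNC, eval_add, eval_sub, eval_mul, eval_pow, eval_c, eSum_eval, numC]
  norm_num

lemma eT_eval (a : Fin 3 → ℕ) (hY : ysum (fun i => (y i).eval x) ≠ 0) :
    (eT y a).eval x =
      2 * ysum (fun i => (y i).eval x) * tau a (fun i => (y i).eval x) := by
  rw [tau, mul_div_cancel₀ _ (mul_ne_zero two_ne_zero hY)]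
  simp only [eT, eval_add, eval_sub, eval_mul, eval_pow, eval_c, eSum_eval, pmon]
  norm_num

lemma polEx_eval (W M : ℕ) (hY : ysum (fun i => (y i).eval x) ≠ 0) :
    ∀ l, okList W M l = true → (polEx y W M l).eval x =
      6 ^ M * ysum (fun i => (y i).eval x) ^ W *
        sval l (numS (fun i => (y i).eval x) / (6 * ysum (fun i => (y i).eval x) ^ 2))
          (numC (fun i => (y i).eval x) / (6 * ysum (fun i => (y i).eval x) ^ 3))
  | [], _ => by simp [polEx, sval]
  | (k, i, j) :: l, h => by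
    simp only [okList, List.all_cons, Bool.and_eq_true, decide_eq_true_eq] at h
    have ih := polEx_eval W M hY l h.2
    simp only [polEx, eval_add, eval_mul, eval_pow, eval_c, eNS_eval, eNC_eval, eSum_eval, ih,
      sval]
    rw [mul_add]
    congr 1
    push_cast
    set Y := ysum fun i => (y i).eval x
    have hM : (6 : ℝ) ^ M = 6 ^ (M - (i + j)) * 6 ^ i * 6 ^ j := by
      rw [mul_assoc, ← pow_add, ← pow_add]; congr 1; omega
    have hW : Y ^ W = Y ^ (W - (2 * i + 3 * j)) * Y ^ (2 * i) * Y ^ (3 * j) := by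
      rw [mul_assoc, ← pow_add, ← pow_add]; congr 1; omega
    rw [hM, hW, div_pow, div_pow, mul_pow, mul_pow, ← pow_mul, ← pow_mul]
    field_simp

lemma chartEx_eval (p z : ℝ) : (fun i => (chartEx i).eval (pt [p, z])) = chart p z := by
  funext i
  fin_cases i <;> simp [chartEx, chart]

lemma horEx_eval (u : Ex) : ∀ l, (horEx l u).eval x = hor l (u.eval x)
  | [] => by simp [horEx, hor]
  | k :: l => by simp [horEx, hor, horEx_eval u l]

lemma horDEx_eval (u : Ex) : ∀ l, (horDEx l u).eval x = horD l (u.eval x)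
  | [] => by simp [horDEx, horD]
  | k :: l => by simp [horDEx, horD, horEx_eval, horDEx_eval u l]

lemma hasDerivAt_hor : ∀ (l : List ℤ) (u : ℝ), HasDerivAt (hor l) (horD l u) u
  | [], u => by simpa [hor, horD] using hasDerivAt_const u (0 : ℝ)
  | k :: l, u => by
    have h := ((hasDerivAt_id u).mul (hasDerivAt_hor l u)).const_add (k : ℝ)
    simpa [hor, horD, id] using h

theorem checkAlt_cut {n : ℕ} {alts : List (List Ex)} {i : ℕ} {l r : ACut} {B : List Iv}
    (hl : checkAlt n alts l (halve Iv.low i B) = true)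
    (hr : checkAlt n alts r (halve Iv.high i B) = true) :
    checkAlt n alts (.cut i l r) B = true := by
  simp [checkAlt, hl, hr]

/-- An expression certified on the unit square, in range. -/
theorem env_nonneg {e : Ex} {n : ℕ} {outs : List Ex} {ks : List ℤ} {T : ACut}
    (hk : ks.all (fun k => decide (0 ≤ k)) = true)
    (h : checkAlt 2 (envAlts n e outs ks) T [⟨0, 1, 1⟩, ⟨0, 1, 1⟩] = true) {p z : ℝ}
    (hp : 0 ≤ p) (hp1 : p ≤ 1) (hz : 0 ≤ z) (hz1 : z ≤ 1) (hY : 0 ≤ ysum (chart p z))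
    (ho : ∀ o ∈ outs, o.eval (pt [p, z]) ≤ 0) : 0 ≤ e.eval (pt [p, z]) := by
  obtain ⟨es, hes, hall⟩ := checkAlt_sound 2 _ T _ (pt [p, z]) h
    (show BoxMem [⟨0, 1, 1⟩, ⟨0, 1, 1⟩] (pt [p, z]) from
      ⟨by simp [Iv.Mem, pt, hp, hp1], by simp [Iv.Mem, pt, hz, hz1], trivial⟩)
  simp only [envAlts, List.mem_cons, List.mem_append, List.mem_map, List.mem_flatMap] at hes
  rcases hes with rfl | ⟨o, hom, rfl⟩ | ⟨o, hom, k, hkm, rfl⟩
  · exact hall e (by simp)
  · have := hall _ (List.mem_cons_self ..)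
    simp only [eval_sub, eval_mul, eval_c] at this
    push_cast at this
    linarith [ho o hom]
  · have := hall _ (List.mem_cons_self ..)
    simp only [eval_add, eval_mul, eval_pow, eval_c, eSum_eval, chartEx_eval] at this
    have hk' : 0 ≤ k := by simpa using (List.all_eq_true.1 hk) k hkm
    have hkr : (0 : ℝ) ≤ k := by exact_mod_cast hk'
    have := mul_nonpos_of_nonpos_of_nonneg (mul_nonpos_of_nonneg_of_nonpos hkr (ho o hom))
      (pow_nonneg hY n)
    linarith

end Vale.Agent.P154.NegNine
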