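import Vale.Agent.P154.NegNine.Data

/-!
P154 NegNine: part of the certificate of envelope D3 (generated).
-/

namespace Vale.Agent.P154.NegNine

open PolyCheck

theorem chkD3_74 : checkAlt 2 (envAlts 6 eEnvD3 [eTop, eBot] [345384, 34538400]) (.leaf 2)
    [⟨3, 4, 8⟩, ⟨0, 1, 1⟩] = true := by
  decide +kernel

theorem chkD3_77 : checkAlt 2 (envAlts 6 eEnvD3 [eTop, eBot] [345384, 34538400]) (.leaf 2)
    [⟨1, 2, 2⟩, ⟨0, 1, 1⟩] = true := by
  decide +kernel

end Vale.Agent.P154.NegNine
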