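import Vale.Agent.P154.NegNine.Data

/-!
P154 NegNine: part of the certificate of envelope D5 (generated).
-/

namespace Vale.Agent.P154.NegNine

open PolyCheck

theorem chkD5 : checkAlt 2 (envAlts 6 eEnvD5 [eTop, eBot] [68040, 6804000]) (.leaf 0)
    [⟨0, 1, 1⟩, ⟨0, 1, 1⟩] = true := by
  decide +kernel

end Vale.Agent.P154.NegNine
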