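import Vale.Agent.P154.NegNine.Data

/-!
P154 NegNine: part of the certificate of envelope Q (generated).
-/

namespace Vale.Agent.P154.NegNine

open PolyCheck

theorem chkQ_0 : checkAlt 2 (envAlts 7 eEnvQ [eTop, eBot] [2266708162959, 226670816295936]) (.leaf 0)
    [⟨0, 1, 8⟩, ⟨0, 1, 1⟩] = true := by
  decide +kernel

theorem chkQ_1 : checkAlt 2 (envAlts 7 eEnvQ [eTop, eBot] [2266708162959, 226670816295936]) (.leaf 0)
    [⟨2, 3, 16⟩, ⟨0, 1, 2⟩] = true := by
  decide +kernel

end Vale.Agent.P154.NegNine
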