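import Vale.Agent.P154.NegNine.EnvVp0
import Vale.Agent.P154.NegNine.EnvVp1

/-!
P154 NegNine: certificate of envelope V (generated).
-/

namespace Vale.Agent.P154.NegNine

open PolyCheck

theorem chkV_2 : checkAlt 2 (envAlts 7 eEnvV [eCor] [607363, 60736392]) (.cut 0 (.leaf 0) (.cut 0 (.cut 1 (.leaf 0) (.leaf 0)) (.leaf 0)))
    [⟨0, 1, 2⟩, ⟨0, 1, 1⟩] = true := checkAlt_cut chkV_0 chkV_1

theorem chkV : checkAlt 2 (envAlts 7 eEnvV [eCor] [607363, 60736392]) (.cut 0 (.cut 0 (.leaf 0) (.cut 0 (.cut 1 (.leaf 0) (.leaf 0)) (.leaf 0))) (.leaf 0))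
    [⟨0, 1, 1⟩, ⟨0, 1, 1⟩] = true := checkAlt_cut chkV_2 chkV_3

end Vale.Agent.P154.NegNine
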