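import Vale.Agent.P154.NegNine.Data

/-!
P154 NegNine: part of the certificate of envelope V (generated).
-/

namespace Vale.Agent.P154.NegNine

open PolyCheck

theorem chkV_0 : checkAlt 2 (envAlts 7 eEnvV [eCor] [607363, 60736392]) (.leaf 0)
    [⟨0, 1, 4⟩, ⟨0, 1, 1⟩] = true := by
  decide +kernel

theorem chkV_1 : checkAlt 2 (envAlts 7 eEnvV [eCor] [607363, 60736392]) (.cut 0 (.cut 1 (.leaf 0) (.leaf 0)) (.leaf 0))
    [⟨1, 2, 4⟩, ⟨0, 1, 1⟩] = true := by
  decide +kernel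

end Vale.Agent.P154.NegNine
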