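import Vale.Agent.P154.NegNine.PointCert

/-!
P154 NegNine: the local affinity certificate for three states on Poisson trees at
`lam ∈ [-1/2, -497/1000]`.
-/

namespace Vale.Agent.P154.NegNine

/-- The certificate on laws whose first defect after one edge is at most `3 / 40`. -/
theorem affCertBelow_nine (lam : ℝ) (h0 : -(1 / 2) ≤ lam) (h1 : lam ≤ -(497 / 1000)) :
    NegLocal.AffCertBelow 3 lam (1 / lam ^ 2) (genPoisson (1 / lam ^ 2))
      (fun _ => (1 / 3 : ℝ)) (3 / 40) := by
  have hlam : 0 < lam ^ 2 := pow_two_pos_of_ne_zero (by linarith)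
  have hd : 0 < 1 / lam ^ 2 := by positivity
  have e : atom 0 = fun _ => (1 / 3 : ℝ) := by
    funext i
    fin_cases i <;> norm_num [atom, atomI]
  have h := NegLocal.affCertBelow_of_tanCertBelow (by norm_num) lam (by norm_num; linarith)
    (by linarith) hd zero_le_one (tanBd_poisson hd) (tanCertBelow h0 h1)
  rwa [e] at h

end Vale.Agent.P154.NegNine
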