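import Vale.Agent.P154.NegEnd.TanAssembly
import Vale.Agent.P154.NegEnd.Param

/-!
P154 NegNine: ninth roots of the sorted components of `1 + u`, and averaged monomials in them.
-/

namespace Vale.Agent.P154.NegNine

open Finset

/-- `3` over the largest component. -/
def ysum (y : Fin 3 → ℝ) : ℝ := y 0 ^ 9 + y 1 ^ 9 + y 2 ^ 9

/-- The sum of a monomial over the six permutations. -/
def pmon (a : Fin 3 → ℕ) (y : Fin 3 → ℝ) : ℝ :=
  y 0 ^ a 0 * y 1 ^ a 1 * y 2 ^ a 2 + y 1 ^ a 0 * y 2 ^ a 1 * y 0 ^ a 2 +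
    y 2 ^ a 0 * y 0 ^ a 1 * y 1 ^ a 2 + y 0 ^ a 0 * y 2 ^ a 1 * y 1 ^ a 2 +
    y 2 ^ a 0 * y 1 ^ a 1 * y 0 ^ a 2 + y 1 ^ a 0 * y 0 ^ a 1 * y 2 ^ a 2

/-- An atom with exponents `a / 9` in the roots. -/
noncomputable def tau (a : Fin 3 → ℕ) (y : Fin 3 → ℝ) : ℝ :=
  (2 * ysum y - pmon a y) / (2 * ysum y)

/-- `6 Y² S`. -/
def numS (y : Fin 3 → ℝ) : ℝ :=
  (3 * y 0 ^ 9 - ysum y) ^ 2 + (3 * y 1 ^ 9 - ysum y) ^ 2 + (3 * y 2 ^ 9 - ysum y) ^ 2

/-- `6 Y³ C`. -/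
def numC (y : Fin 3 → ℝ) : ℝ :=
  (3 * y 0 ^ 9 - ysum y) ^ 3 + (3 * y 1 ^ 9 - ysum y) ^ 3 + (3 * y 2 ^ 9 - ysum y) ^ 3

/-- The roots in the chart. -/
def chart (p z : ℝ) : Fin 3 → ℝ := ![1, 1 - p * z, 1 - p]

/-- The sorted roots of a deviation, with the permutation that sorts it. -/
structure Roots (v : Fin 3 → ℝ) (y : Fin 3 → ℝ) (σ : Equiv.Perm (Fin 3)) : Prop where
  top : y 0 = 1
  nonneg : 0 ≤ y 2
  mid : y 2 ≤ y 1
  le_one : y 1 ≤ 1
  pos : 0 < ysum y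
  one_le : 1 ≤ ysum y
  comp : ∀ k, 1 + v (σ k) = 3 * y k ^ 9 / ysum y
  le_top : ∀ i, v i ≤ v (σ 0)
  bot_le : ∀ i, v (σ 2) ≤ v i
  eqS : Neg3.S v = numS y / (6 * ysum y ^ 2)
  eqC : Neg3.C v = numC y / (6 * ysum y ^ 3)
  eqVert : ∀ a : Fin 3 → ℕ, a 0 + a 1 + a 2 = 9 →
    NegEnd.vert (fun i => (a i : ℝ) / 9) v = tau a y

/-- Every deviation has sorted roots. -/
theorem exists_roots {v : Fin 3 → ℝ} (hv : Dev v) : ∃ y σ, Roots v y σ := by
  set σ : Equiv.Perm (Fin 3) := Tuple.sort fun i => -v i with hσ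
  have hs := Tuple.monotone_sort fun i => -v i
  have h01 : v (σ 1) ≤ v (σ 0) := by
    have := hs (show (0 : Fin 3) ≤ 1 by decide)
    simpa using this
  have h12 : v (σ 2) ≤ v (σ 1) := by
    have := hs (show (1 : Fin 3) ≤ 2 by decide)
    simpa using this
  obtain ⟨w, hw⟩ : ∃ w : Fin 3 → ℝ, w = v ∘ σ := ⟨_, rfl⟩
  have hsum : w 0 + w 1 + w 2 = 0 := by
    have h := hv.1
    rw [← Equiv.sum_comp σ v, Fin.sum_univ_three] at h
    rw [hw]; exact h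
  have hge : ∀ i, -1 ≤ w i := fun i => hw ▸ hv.2 (σ i)
  have hm : w 1 ≤ w 0 ∧ w 2 ≤ w 1 := hw ▸ ⟨h01, h12⟩
  have hp : 0 < 1 + w 0 := by linarith [hge 0, hge 1, hge 2, hm.1, hm.2]
  have q : ∀ i, 0 ≤ (1 + w i) / (1 + w 0) := fun i => div_nonneg (by linarith [hge i]) hp.le
  obtain ⟨y, hy⟩ : ∃ y : Fin 3 → ℝ, y = fun i => ((1 + w i) / (1 + w 0)) ^ (1 / 9 : ℝ) :=
    ⟨_, rfl⟩
  have e : ∀ i, y i ^ 9 = (1 + w i) / (1 + w 0) := fun i => by
    rw [hy, ← Real.rpow_natCast, ← Real.rpow_mul (q i)]; norm_num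
  have b : ∀ i, 0 ≤ y i := fun i => hy ▸ Real.rpow_nonneg (q i) _
  have y0 : y 0 = 1 := by simp [hy, div_self hp.ne']
  have hY : ysum y = 3 / (1 + w 0) := by
    simp only [ysum, e]
    field_simp
    linarith
  have hpos : 0 < ysum y := hY ▸ by positivity
  have hcomp : ∀ k, 1 + v (σ k) = 3 * y k ^ 9 / ysum y := fun k => by
    have : 1 + w k = 3 * y k ^ 9 / ysum y := by
      rw [e, hY]; field_simp
    simpa [hw] using this
  have hstruct : ∀ i, ∃ k, σ k = i := fun i => ⟨σ.symm i, σ.apply_symm_apply i⟩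
  refine ⟨y, σ, ⟨y0, b 2, ?_, ?_, hpos, ?_, hcomp, fun i => ?_, fun i => ?_, ?_, ?_, fun a ha => ?_⟩⟩
  · rw [hy]
    exact Real.rpow_le_rpow (q 2) ((div_le_div_iff_of_pos_right hp).2 (by linarith [hm.2]))
      (by norm_num)
  · rw [hy]
    exact Real.rpow_le_one (q 1) ((div_le_one hp).2 (by linarith [hm.1])) (by norm_num)
  · simp only [ysum, y0, one_pow]
    linarith [pow_nonneg (b 1) 9, pow_nonneg (b 2) 9]
  · obtain ⟨k, rfl⟩ := hstruct i
    fin_cases k <;> simp <;> linarith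
  · obtain ⟨k, rfl⟩ := hstruct i
    fin_cases k <;> simp <;> linarith
  · have hS : Neg3.S v = (w 0 ^ 2 + w 1 ^ 2 + w 2 ^ 2) / 6 := by
      have h := Equiv.sum_comp σ fun i => v i ^ 2
      simp only [Fin.sum_univ_three] at h
      simp only [Neg3.S, hw, Function.comp_apply, h]
    rw [hS, numS, e, e, e, hY]
    field_simp
    ring
  · have hC : Neg3.C v = (w 0 ^ 3 + w 1 ^ 3 + w 2 ^ 3) / 6 := by
      have h := Equiv.sum_comp σ fun i => v i ^ 3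
      simp only [Fin.sum_univ_three] at h
      simp only [Neg3.C, hw, Function.comp_apply, h]
    rw [hC, numC, e, e, e, hY]
    field_simp
    ring
  · rw [← NegEnd.vert_perm _ v σ, ← hw]
    have hr : ∀ i, 1 + w i = (1 + w 0) * y i ^ 9 := fun i => by
      rw [e, mul_div_cancel₀ _ hp.ne']
    have hpow : ∀ (i : Fin 3) (n : ℕ),
        (1 + w i) ^ ((n : ℝ) / 9) = (1 + w 0) ^ ((n : ℝ) / 9) * y i ^ n := fun i n => by
      rw [hr i, Real.mul_rpow hp.le (by have := b i; positivity), ← Real.rpow_natCast (y i) 9,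
        ← Real.rpow_mul (b i)]
      congr 1
      rw [← Real.rpow_natCast (y i) n]
      congr 1
      push_cast
      ring
    have hmain : ∀ i j k : Fin 3,
        (1 + w i) ^ ((a 0 : ℝ) / 9) * (1 + w j) ^ ((a 1 : ℝ) / 9) * (1 + w k) ^ ((a 2 : ℝ) / 9) =
          (1 + w 0) * (y i ^ a 0 * y j ^ a 1 * y k ^ a 2) := fun i j k => by
      rw [hpow i (a 0), hpow j (a 1), hpow k (a 2)]
      have h9 : (1 + w 0) ^ ((a 0 : ℝ) / 9) * (1 + w 0) ^ ((a 1 : ℝ) / 9) *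
          (1 + w 0) ^ ((a 2 : ℝ) / 9) = 1 + w 0 := by
        rw [← Real.rpow_add hp, ← Real.rpow_add hp, ← add_div, ← add_div]
        have : (a 0 : ℝ) + a 1 + a 2 = 9 := by exact_mod_cast ha
        rw [this, div_self (by norm_num : (9 : ℝ) ≠ 0), Real.rpow_one]
      linear_combination (y i ^ a 0 * y j ^ a 1 * y k ^ a 2) * h9
    simp only [NegEnd.vert, PointAssembly.pav, aff, Fin.prod_univ_three, Function.comp_apply]
    rw [NegEnd.perm_sum fun i j k => 1 - (1 + w i) ^ ((a 0 : ℝ) / 9) * (1 + w j) ^ ((a 1 : ℝ) / 9) *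
      (1 + w k) ^ ((a 2 : ℝ) / 9)]
    simp only [hmain, tau, pmon, hY, Fintype.card_perm, Fintype.card_fin]
    norm_num [Nat.factorial]
    field_simp
    ring

/-- The roots in the chart. -/
theorem Roots.exists_chart {v y : Fin 3 → ℝ} {σ : Equiv.Perm (Fin 3)} (h : Roots v y σ) :
    ∃ p z : ℝ, 0 ≤ p ∧ p ≤ 1 ∧ 0 ≤ z ∧ z ≤ 1 ∧ y = chart p z := by
  have l2 : y 2 ≤ 1 := h.mid.trans h.le_one
  rcases eq_or_lt_of_le l2 with e2 | e2
  · refine ⟨0, 0, le_rfl, zero_le_one, le_rfl, zero_le_one, ?_⟩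
    have e1 : y 1 = 1 := le_antisymm h.le_one (e2 ▸ h.mid)
    funext i
    fin_cases i <;> simp [chart, h.top, e1, e2]
  · refine ⟨1 - y 2, (1 - y 1) / (1 - y 2), by linarith, by linarith [h.nonneg],
      div_nonneg (by linarith [h.le_one]) (by linarith),
      div_le_one_of_le₀ (by linarith [h.mid]) (by linarith), ?_⟩
    funext i
    fin_cases i <;> simp [chart, h.top]
    rw [mul_div_cancel₀ _ (by linarith)]
    ring

end Vale.Agent.P154.NegNine
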