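import Vale.Agent.P154.NegNine.Corner
import Vale.Agent.P154.NegNine.Closing
import Vale.Agent.P154.NegLocal.SmallAssembly
import Vale.Agent.P154.Neg3.Assembly

/-!
P154 NegNine: the pointwise tangent certificate on `[-1/2, -497/1000]` below `3 / 40`.
-/

namespace Vale.Agent.P154.NegNine

open PolyCheck

lemma vert_atom_le_one {v : Fin 3 → ℝ} (hv : Dev v) (j : Fin 6) :
    NegEnd.vert (atom j) v ≤ 1 := by
  obtain ⟨y, σ, h⟩ := exists_roots hv
  rw [h.vert_atom, tau, div_le_one (by linarith [h.pos])]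
  have : 0 ≤ pmon (atomI j) y := by
    have b0 : 0 ≤ y 0 := by rw [h.top]; exact zero_le_one
    have b1 : 0 ≤ y 1 := h.nonneg.trans h.mid
    have b2 := h.nonneg
    unfold pmon
    positivity
  linarith

/-- The closing expression is a multiple of the certified bound. -/
lemma Kclo_eq (a η l m : ℝ) :
    Kclo a η l m = 87480000000000000000000000000000 *
      (mon 0 0 L_Vh a (-η) 1 / 81000000 - mon 2 0 L_Gh a η l / 81000000 -
        mon 4 0 L_Q a η l / 8748000000000000 / 2 - 1 / 100000 * a ^ 4 +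
        (-80707 / 1000000 * sHi m + 123789 / 1000000 * sLo (292 / 1000 * m) +
          -219516 / 1000000 * sHi (489 / 1000 * m) + 162070 / 1000000 * sLo (721 / 1000 * m) +
          -182441 / 1000000 * sHi (882 / 1000 * m) + 231475 / 1000000 * sLo (885 / 1000 * m)) +
        123789 / 1000000 * sD (292 / 1000 * m) * (mon 2 0 L_D1 a η l / 81000000) +
        -219516 / 1000000 * sD (489 / 1000 * m) * (mon 2 0 L_D2 a η l / 81000000) +
        162070 / 1000000 * sD (721 / 1000 * m) * (mon 2 0 L_D3 a η l / 81000000) +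
        -182441 / 1000000 * sD (882 / 1000 * m) * (mon 2 0 L_D4 a η l / 81000000) +
        231475 / 1000000 * sD (885 / 1000 * m) * (mon 2 0 L_D5 a η l / 81000000)) := by
  simp only [Kclo, hor, h0, h1, h2, h3, h4, h5, sLo, sHi, sD]
  push_cast
  ring

lemma S_le_bulk {u : Fin 3 → ℝ} (hu : Dev u) (hM : ∀ i, u i ≤ 17 / 10) :
    Neg3.S u ≤ 73 / 100 := by
  have h3 := hu.1
  rw [Fin.sum_univ_three] at h3
  have key : ∀ x y z : ℝ, x + y + z = 0 → 0 ≤ x → x ≤ 17 / 10 → -1 ≤ y → -1 ≤ z →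
      x ^ 2 + y ^ 2 + z ^ 2 ≤ 438 / 100 := fun x y z hs hx hx1 hy hz => by
    have hz' : z = -x - y := by linarith
    subst hz'
    linarith [mul_nonneg (neg_le_iff_add_nonneg.1 hy) (neg_le_iff_add_nonneg.1 hz),
      mul_nonneg (sub_nonneg.2 hx1) (show (0 : ℝ) ≤ 2 * x + 14 / 10 by linarith)]
  rw [Neg3.S]
  rcases le_total 0 (u 0) with p0 | p0
  · linarith [key (u 0) (u 1) (u 2) h3 p0 (hM 0) (hu.2 1) (hu.2 2)]
  rcases le_total 0 (u 1) with p1 | p1
  · linarith [key (u 1) (u 2) (u 0) (by linarith) p1 (hM 1) (hu.2 2) (hu.2 0)]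
  · linarith [key (u 2) (u 0) (u 1) (by linarith) (by linarith) (hM 2) (hu.2 0) (hu.2 1)]

/-- The envelopes after one edge, in `a` and `η`. -/
lemma bulk_edge {u : Fin 3 → ℝ} (hu : Dev u) {l a η : ℝ} (hl : 497 / 1000 ≤ l) (hl1 : l ≤ 1 / 2)
    (hM : ∀ i, u i ≤ 17 / 10) (ha2 : a ^ 2 = Neg3.S u) (hCη : Neg3.C u = η * a ^ 3)
    (hvd : Dev fun i => -l * u i) {e : Fin 6 → ℝ}
    (he : ∀ j, e j = NegEnd.vert (atom j) (fun i => -l * u i) / l ^ 2) : (-80707 / 1000000 * e 0 + 123789 / 1000000 * e 1 + -219516 / 1000000 * e 2 +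
      162070 / 1000000 * e 3 + -182441 / 1000000 * e 4 + 231475 / 1000000 * e 5 ≤
      468645 / 81000000 * a ^ 2 + mon 2 0 L_Gh a η l / 81000000) ∧
    mon 2 0 L_D1 a η l / 81000000 ≤ e 1 - 292 / 1000 * e 0 ∧
    e 2 - 489 / 1000 * e 0 ≤ mon 2 0 L_D2 a η l / 81000000 ∧
    mon 2 0 L_D3 a η l / 81000000 ≤ e 3 - 721 / 1000 * e 0 ∧
    e 4 - 882 / 1000 * e 0 ≤ mon 2 0 L_D4 a η l / 81000000 ∧
    mon 2 0 L_D5 a η l / 81000000 ≤ e 5 - 885 / 1000 * e 0 ∧
    219516 / 1000000 * (e 2 - 489 / 1000 * e 0) ^ 2 +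
      182441 / 1000000 * (e 4 - 882 / 1000 * e 0) ^ 2 ≤
      mon 4 0 L_Q a η l / 8748000000000000 := by
  have hl2 : 0 < l ^ 2 := by nlinarith
  obtain ⟨v, hv⟩ : ∃ v : Fin 3 → ℝ, v = fun i => -l * u i := ⟨_, rfl⟩
  rw [← hv] at hvd he
  have hv0 : ∀ i, v i ≤ 1 / 2 := fun i => by
    rw [hv]; nlinarith [hu.2 i]
  have hv1 : ∀ i, -(17 / 20) ≤ v i := fun i => by
    rw [hv]; nlinarith [hM i]
  have eS : Neg3.S v = l ^ 2 * a ^ 2 := by rw [ha2, Neg3.S, Neg3.S, hv]; ring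
  have eC : Neg3.C v = -(l ^ 3 * (η * a ^ 3)) := by rw [← hCη, Neg3.C, Neg3.C, hv]; ring
  obtain ⟨hG, hD1, hD2, hD3, hD4, hD5, hQ⟩ := envelope_edge hvd hv0 hv1
  rw [eS, eC] at hG hD1 hD2 hD3 hD4 hD5 hQ
  simp only [NegEnd.sval_edge 2 a η l L_Gh (by decide), NegEnd.sval_edge 2 a η l L_D1 (by decide),
    NegEnd.sval_edge 2 a η l L_D2 (by decide), NegEnd.sval_edge 2 a η l L_D3 (by decide),
    NegEnd.sval_edge 2 a η l L_D4 (by decide), NegEnd.sval_edge 2 a η l L_D5 (by decide),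
    NegEnd.sval_edge 4 a η l L_Q (by decide)] at hG hD1 hD2 hD3 hD4 hD5 hQ
  obtain ⟨c0, c1, c2, c3, c4, c5⟩ := coef_vals
  simp only [Fin.sum_univ_six, c0, c1, c2, c3, c4, c5] at hG
  have ev : ∀ j, NegEnd.vert (atom j) v = l ^ 2 * e j := fun j => by
    rw [he j, mul_div_cancel₀ _ hl2.ne']
  simp only [ev] at hG hD1 hD2 hD3 hD4 hD5 hQ
  refine ⟨?_, ?_, ?_, ?_, ?_, ?_, ?_⟩
  iterate 6 exact le_of_mul_le_mul_left (by linarith) hl2
  exact le_of_mul_le_mul_left (by linarith) (show 0 < l ^ 4 by positivity)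

/-- The certificate outside the corner. -/
theorem bulk {u : Fin 3 → ℝ} (hu : Dev u) {l : ℝ} (hl : 497 / 1000 ≤ l) (hl1 : l ≤ 1 / 2)
    (hM : ∀ i, u i ≤ 17 / 10) {m : ℝ} (hm : 0 ≤ m) (hm1 : m ≤ 3 / 40)
    (hvd : Dev fun i => -l * u i) {e : Fin 6 → ℝ}
    (he : ∀ j, e j = NegEnd.vert (atom j) (fun i => -l * u i) / l ^ 2) :
    1 / 100000 * ss u ^ 2 ≤
      ∑ j, coef j * (NegEnd.vert (atom j) u - e j) + rem e m := by
  have hl0 : 0 < l := by linarith
  have hl2 : 0 < l ^ 2 := by positivity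
  have hS : Neg3.S u = ss u := Neg3.S_eq_ss u
  obtain ⟨hC2, hC1⟩ := Neg3.C_sq_le hu
  have hS0 : 0 ≤ Neg3.S u := by rw [Neg3.S]; positivity
  have hS1 : Neg3.S u ≤ 73 / 100 := S_le_bulk hu hM
  obtain ⟨a, ha⟩ : ∃ a, a = √(Neg3.S u) := ⟨_, rfl⟩
  have ha0 : 0 ≤ a := ha ▸ Real.sqrt_nonneg _
  have ha2 : a ^ 2 = Neg3.S u := by rw [ha, Real.sq_sqrt hS0]
  have ha1 : a ≤ 855 / 1000 := by nlinarith
  obtain ⟨η, hη, hη1, hCη⟩ : ∃ η, -1 ≤ η ∧ η ≤ 1 ∧ Neg3.C u = η * a ^ 3 := by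
    have hsq : Neg3.C u ^ 2 ≤ (a ^ 3) ^ 2 := by
      rw [← pow_mul, mul_comm, pow_mul, ha2]; exact hC2
    obtain ⟨hlo, hhi⟩ := abs_le_of_sq_le_sq' hsq (by positivity)
    rcases ha0.eq_or_lt with h | h
    · refine ⟨0, by norm_num, by norm_num, ?_⟩
      rw [← h] at hlo hhi
      norm_num at hlo hhi ⊢
      linarith
    · have h3 : 0 < a ^ 3 := by positivity
      exact ⟨Neg3.C u / a ^ 3, (le_div_iff₀ h3).2 (by linarith), (div_le_one h3).2 hhi,
        (div_mul_cancel₀ _ h3.ne').symm⟩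
  have hK := closing_nonneg ha0 ha1 hη hη1 (by rw [ha2]; linarith [hC1, hCη]) hl hl1 hm hm1
  rw [Kclo_eq] at hK
  have hK' := nonneg_of_mul_nonneg_right hK (by norm_num)
  obtain ⟨fG, f1, f2, f3, f4, f5, fQ⟩ := bulk_edge hu hl hl1 hM ha2 hCη hvd he
  have hu' := envelope_vertex hu hM
  rw [← ha2, hCη, NegEnd.sval_vertex] at hu'
  obtain ⟨c0, c1, c2, c3, c4, c5⟩ := coef_vals
  simp only [Fin.sum_univ_six, c0, c1, c2, c3, c4, c5] at hu' ⊢
  have p1 := mul_le_mul_of_nonneg_left f1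
    (sD_nonneg (x := 292 / 1000 * m) (by positivity) (by linarith))
  have p2 := mul_le_mul_of_nonneg_left f2
    (sD_nonneg (x := 489 / 1000 * m) (by positivity) (by linarith))
  have p3 := mul_le_mul_of_nonneg_left f3
    (sD_nonneg (x := 721 / 1000 * m) (by positivity) (by linarith))
  have p4 := mul_le_mul_of_nonneg_left f4
    (sD_nonneg (x := 882 / 1000 * m) (by positivity) (by linarith))
  have p5 := mul_le_mul_of_nonneg_left f5
    (sD_nonneg (x := 885 / 1000 * m) (by positivity) (by linarith))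
  have hSS : ss u ^ 2 = a ^ 4 := by rw [← hS, ← ha2]; ring
  simp only [hSS, rem]
  linarith

/-- The pointwise certificate. -/
theorem tanCertBelow {lam : ℝ} (h0 : -(1 / 2) ≤ lam) (h1 : lam ≤ -(497 / 1000)) :
    NegLocal.TanCertBelow lam (1 / lam ^ 2) 1 (41 / 10) (3 / 40) (1 / 100000) coef rat atom
      sLo sD sHi sD (fun _ => 0) := by
  refine ⟨by norm_num, fun j i => by unfold atom; positivity, fun j => ?_, fun j => ?_,
    fun u hu => ?_⟩
  · have h := atomI_sum j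
    have : ((atomI j 0 : ℝ) + atomI j 1 + atomI j 2) = 9 := by exact_mod_cast h
    simp only [atom, Fin.sum_univ_three]
    linarith
  · fin_cases j <;> norm_num [rat, ratI]
  obtain ⟨l, hl⟩ : ∃ l, l = -lam := ⟨_, rfl⟩
  have hlam : lam = -l := by linarith
  subst hlam
  have hl0 : 497 / 1000 ≤ l := by linarith
  have hl1 : l ≤ 1 / 2 := by linarith
  have hl2 : 0 < l ^ 2 := by nlinarith
  have hvd : Dev (fun i => -l * u i) :=
    hu.scale (q := 3) (by norm_num) (by norm_num; linarith) (by linarith)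
  obtain ⟨e, hej⟩ : ∃ e : Fin 6 → ℝ,
      e = fun j => NegEnd.vert (atom j) (fun i => -l * u i) / l ^ 2 := ⟨_, rfl⟩
  have e' : ∀ j, NegEnd.edge (-l) (1 / (-l) ^ 2) (atom j) u = e j := fun j => by
    rw [NegEnd.edge_eq, hej, neg_sq, one_div, inv_mul_eq_div]
  have he : ∀ j, e j = NegEnd.vert (atom j) (fun i => -l * u i) / l ^ 2 := fun j => by rw [hej]
  refine ⟨fun j => ?_, fun m hm hm1 _ => ?_⟩
  · rw [e', he j, div_le_iff₀ hl2]
    nlinarith [vert_atom_le_one hvd j]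
  have key : 1 / 100000 * ss u ^ 2 ≤
      ∑ j, coef j * (NegEnd.vert (atom j) u - e j) + rem e m := by
    by_cases hc : ∀ i, u i ≤ 17 / 10
    · exact bulk hu hl0 hl1 hc hm hm1 hvd he
    · simp only [not_forall, not_le] at hc
      obtain ⟨i0, hi0⟩ := hc
      refine le_trans ?_ (corner hu hl0 hl1 hi0 hm hm1 hvd he)
      have hs1 : ss u ≤ 1 := ss_le_one (by norm_num) hu
      have hs0 : 0 ≤ ss u := by rw [← Neg3.S_eq_ss u, Neg3.S]; positivity
      nlinarith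
  obtain ⟨c0, c1, c2, c3, c4, c5⟩ := coef_vals
  obtain ⟨r0, r1, r2, r3, r4, r5⟩ := rat_vals
  simp only [Fin.sum_univ_six, e', rem] at key ⊢
  norm_num [c0, c1, c2, c3, c4, c5, r0, r1, r2, r3, r4, r5, NegEnd.tanTerm] at key ⊢
  linarith

end Vale.Agent.P154.NegNine
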